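import Vale.Agent.P088.R2.H591.C.JB

/-!
# P088, stage 3, zone C, region I: the jets of the level `u` (continued)
-/

open Set Filter
open scoped ContDiff Topology

noncomputable section

namespace Vale.Agent.P088.R2.H591.C

open Vale.Agent.P088.LR Vale.Agent.P088.HY
open Vale.Agent.P088.R2.H464.Cu (mid dif Hv mid_apply contDiff_mid)
open Vale.Agent.P088.R2.H475 (wR)
open Vale.Agent.P088.R2.H644 (qq qv)
open Vale.Agent.P088.R2.H973.W (DD dr DD_congr DD_add)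
open Vale.Agent.P088.R2.H961.GW (Sm)

variable {n : ℕ} {σ R c : ℝ}

/-- The model of `u`. -/
def um (n : ℕ) (σ R c : ℝ) (μ : ℝ → ℝ) (z : VV n) : ℝ :=
  fm μ (ql n σ R c z) + σ / (4 * R) * qq z

theorem ql_smooth : ContDiff ℝ ∞ (ql n σ R c) := by
  have h1 : ∀ i, ContDiff ℝ ∞ fun z : VV n => wR n σ R (mid z) i := fun i => by
    have : (fun z : VV n => wR n σ R (mid z) i) =
        fun z => wR n σ R 0 i + σ / (2 * R) * (z.1 i + z.2 i) := funext fun z => wR_mid i z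
    rw [this]
    exact contDiff_const.add (contDiff_const.mul
      (((contDiff_apply ℝ ℝ i).comp contDiff_fst).add ((contDiff_apply ℝ ℝ i).comp contDiff_snd)))
  unfold ql HY.sq
  exact contDiff_const.add (contDiff_const.mul
    ((ContDiff.sum fun i _ => (h1 i).pow 2).sub contDiff_const))

theorem um_smooth {μ : ℝ → ℝ} (h : ContDiff ℝ ∞ μ) : ContDiff ℝ ∞ (um n σ R c μ) :=
  ((fm_smooth h).comp ql_smooth).add (contDiff_const.mul H644.contDiff_qq)

theorem DD_um {μ : ℝ → ℝ} (h : ContDiff ℝ ∞ μ) (L : List (VV n)) (z : VV n) :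
    DD L (um n σ R c μ) z = DD L (fun z => fm μ (ql n σ R c z)) z +
      DD L (fun z => σ / (4 * R) * qq z) z :=
  DD_add isOpen_univ (((fm_smooth h).comp ql_smooth).contDiffOn)
    ((contDiff_const.mul H644.contDiff_qq).contDiffOn) L z (mem_univ z)

section

variable {m : ℝ} {μ : ℝ → ℝ} {z : VV n}

theorem Lv.D1 (h : Lv σ R m μ c z) (v : VV n) : fderiv ℝ (um n σ R c μ) z v =
    Fj n σ R c (fm μ) 1 z * Aq n σ R v z +
      σ / (2 * R) * ∑ i, (z.1 i - z.2 i) * (v.1 i - v.2 i) := by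
  have h1 : fderiv ℝ (um n σ R c μ) z v = DD [v] (um n σ R c μ) z := rfl
  rw [h1, DD_um h.μs, DD1 h.s0 h.R0 (fm_smooth h.μs), Q1]
  have e : σ / (2 * R) = σ / (4 * R) * 2 := by
    have := h.R0.ne'
    field_simp
    norm_num
  rw [e]
  ring

theorem Lv.D2 (h : Lv σ R m μ c z) (v' v : VV n) : DD [v', v] (um n σ R c μ) z =
    Fj n σ R c (fm μ) 2 z * Aq n σ R v' z * Aq n σ R v z +
      Fj n σ R c (fm μ) 1 z * cq σ R v' v + σ / (4 * R) * dq2 v' v := by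
  rw [DD_um h.μs, DD2 h.s0 h.R0 (fm_smooth h.μs), Q2]

theorem mul_le' {a b A B : ℝ} (ha : |a| ≤ A) (hb : |b| ≤ B) : |a * b| ≤ A * B := by
  rw [abs_mul]
  exact mul_le_mul ha hb (abs_nonneg _) ((abs_nonneg _).trans ha)

theorem add_le' {a b A B : ℝ} (ha : |a| ≤ A) (hb : |b| ≤ B) : |a + b| ≤ A + B :=
  (abs_add_le _ _).trans (add_le_add ha hb)

theorem Lv.b2 (h : Lv σ R m μ c z) (a b : Fin n ⊕ Fin n) :
    |DD [dr n a, dr n b] (um n σ R c μ) z| ≤ 6 * m + 2 * (σ / R) := by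
  rw [h.D2]
  have hc := h.c4
  have h1 := mul_le' (mul_le' h.F2 (h.A a)) (h.A b)
  have hF : |Fj n σ R c (fm μ) 1 z| ≤ 9 / 4 := abs_le.2 ⟨by linarith [h.F1.1], h.F1.2⟩
  have h2 := mul_le' hF (h.cc a b)
  have h3 := mul_le' (abs_of_pos hc.1).le (dq_dr a b)
  have h4 := add_le' (add_le' h1 h2) h3
  have e : σ / (4 * R) = σ / R / 4 := by
    have := h.R0.ne'
    field_simp
  refine h4.trans ?_
  rw [e] at hc ⊢
  linarith only [h.m0, hc.1]

theorem Lv.b3 (h : Lv σ R m μ c z) (d a b : Fin n ⊕ Fin n) :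
    |DD [dr n d, dr n a, dr n b] (um n σ R c μ) z| ≤ 6 * m + 2 * (σ / R) := by
  rw [DD_um h.μs, DD3 h.s0 h.R0 (fm_smooth h.μs), Q3, add_zero]
  have hc := h.c4
  have h1 := mul_le' (mul_le' (mul_le' h.F3 (h.A d)) (h.A a)) (h.A b)
  have h2 := mul_le' h.F2 (add_le' (add_le' (mul_le' (h.cc d a) (h.A b))
    (mul_le' (h.A a) (h.cc d b))) (mul_le' (h.A d) (h.cc a b)))
  have h4 := add_le' h1 h2
  refine h4.trans ?_
  have h0 := h.m0
  have h5 : 0 < σ / R := div_pos h.s0 h.R0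
  set t := σ / (4 * R)
  have h6 : m * t ≤ m * (1 / 40) := mul_le_mul_of_nonneg_left hc.2 h0
  linarith only [h0, h5, h6]

theorem Lv.b4 (h : Lv σ R m μ c z) (g d a b : Fin n ⊕ Fin n) :
    |DD [dr n g, dr n d, dr n a, dr n b] (um n σ R c μ) z| ≤ 6 * m + 2 * (σ / R) := by
  rw [DD_um h.μs, DD4 h.s0 h.R0 (fm_smooth h.μs), Q4, add_zero]
  have hc := h.c4
  have h1 := mul_le' (mul_le' (mul_le' (mul_le' h.F4 (h.A g)) (h.A d)) (h.A a)) (h.A b)
  have k1 := add_le' (add_le' (add_le' (mul_le' (mul_le' (h.cc g d) (h.A a)) (h.A b))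
    (mul_le' (mul_le' (h.A d) (h.cc g a)) (h.A b)))
    (mul_le' (mul_le' (h.A d) (h.A a)) (h.cc g b)))
    (mul_le' (h.A g) (add_le' (add_le' (mul_le' (h.cc d a) (h.A b))
    (mul_le' (h.A a) (h.cc d b))) (mul_le' (h.A d) (h.cc a b))))
  have k2 := add_le' (add_le' (mul_le' (h.cc d a) (h.cc g b)) (mul_le' (h.cc g a) (h.cc d b)))
    (mul_le' (h.cc g d) (h.cc a b))
  have h4 := add_le' (add_le' h1 (mul_le' h.F3 k1)) (mul_le' h.F2 k2)
  refine h4.trans ?_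
  have h0 := h.m0
  have h5 : 0 < σ / R := div_pos h.s0 h.R0
  set t := σ / (4 * R)
  have h6 : m * t ≤ m * (1 / 40) := mul_le_mul_of_nonneg_left hc.2 h0
  have h7 : t * t ≤ t * (1 / 40) := mul_le_mul_of_nonneg_left hc.2 hc.1.le
  have h8 : m * (t * t) ≤ m * (t * (1 / 40)) := mul_le_mul_of_nonneg_left h7 h0
  linarith only [h0, h5, h6, h8]

/-- All directional derivatives of order `2`, `3`, `4`. -/
theorem Lv.hj (h : Lv σ R m μ c z) (L : List (Fin n ⊕ Fin n)) (h2 : 2 ≤ L.length)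
    (h4 : L.length ≤ 4) : |DD (L.map (dr n)) (um n σ R c μ) z| ≤ 6 * m + 2 * (σ / R) := by
  match L, h2, h4 with
  | [a, b], _, _ => exact h.b2 a b
  | [d, a, b], _, _ => exact h.b3 d a b
  | [g, d, a, b], _, _ => exact h.b4 g d a b

/-- `(Aq v)² ≤ (Du v)² + (σ/2R)² |q|² |d|²`. -/
theorem Lv.Asq (h : Lv σ R m μ c z) (v : VV n) : Aq n σ R v z ^ 2 ≤
    fderiv ℝ (um n σ R c μ) z v ^ 2 + (σ / (2 * R)) ^ 2 * ∑ i, (v.1 i - v.2 i) ^ 2 := by
  have h1 := h.D1 v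
  set D := fderiv ℝ (um n σ R c μ) z v
  set F := Fj n σ R c (fm μ) 1 z
  set S := ∑ i, (z.1 i - z.2 i) * (v.1 i - v.2 i)
  set T := ∑ i, (v.1 i - v.2 i) ^ 2
  set A := Aq n σ R v z
  set k := σ / (2 * R)
  have hS : S ^ 2 ≤ T := by
    have h2 := Finset.sum_mul_sq_le_sq_mul_sq Finset.univ (fun i => z.1 i - z.2 i)
      (fun i => v.1 i - v.2 i)
    have h3 : ∑ i, (z.1 i - z.2 i) ^ 2 = qq z := by rw [H644.qq_eq]; rfl
    rw [h3] at h2
    have hT : 0 ≤ T := Finset.sum_nonneg fun i _ => sq_nonneg _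
    exact h2.trans (mul_le_of_le_one_left hT h.q1)
  have hF := h.F1.1
  have h5 : F * A = D - k * S := by rw [h1]; ring
  have h6 : (7 / 4) ^ 2 * A ^ 2 ≤ (D - k * S) ^ 2 := by
    rw [← h5, mul_pow]
    have : (7 / 4 : ℝ) ^ 2 ≤ F ^ 2 := by
      have : (7 / 4 : ℝ) ≤ F := hF
      nlinarith only [this]
    exact mul_le_mul_of_nonneg_right this (sq_nonneg _)
  have h7 : (D - k * S) ^ 2 ≤ 2 * D ^ 2 + 2 * (k ^ 2 * T) := by
    have h8 : k ^ 2 * S ^ 2 ≤ k ^ 2 * T := mul_le_mul_of_nonneg_left hS (sq_nonneg _)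
    nlinarith only [h8, sq_nonneg (D + k * S)]
  have hkT : 0 ≤ k ^ 2 * T := mul_nonneg (sq_nonneg _) (Finset.sum_nonneg fun i _ => sq_nonneg _)
  nlinarith only [h6, h7, hkT, sq_nonneg D]

/-- Almost convex. -/
theorem Lv.cv (h : Lv σ R m μ c z) (v : VV n) :
    -(2 * m * fderiv ℝ (um n σ R c μ) z v ^ 2) ≤ DD [v, v] (um n σ R c μ) z := by
  rw [h.D2]
  have h1 := h.Asq v
  have hc := h.c4
  set D := fderiv ℝ (um n σ R c μ) z v
  set F := Fj n σ R c (fm μ) 1 z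
  set T := ∑ i, (v.1 i - v.2 i) ^ 2 with hT
  have hT0 : 0 ≤ T := Finset.sum_nonneg fun i _ => sq_nonneg _
  have h2 : dq2 v v = 2 * T := by
    unfold dq2
    rw [hT]
    refine congrArg _ (Finset.sum_congr rfl fun i _ => by ring)
  have h3 : 0 ≤ cq σ R v v := by
    unfold cq
    refine mul_nonneg hc.1.le (Finset.sum_nonneg fun i _ => mul_self_nonneg _)
  have hF := h.F1.1
  have h4 : 0 ≤ F * cq σ R v v := mul_nonneg (by linarith) h3
  have h5 := (abs_le.1 h.F2).1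
  set A := Aq n σ R v z
  set F2 := Fj n σ R c (fm μ) 2 z
  have h6 : -(2 * m) * A ^ 2 ≤ F2 * A * A := by nlinarith only [h5, sq_nonneg A]
  have h0 := h.m0
  have h7 : m * A ^ 2 ≤ m * (D ^ 2 + (σ / (2 * R)) ^ 2 * T) := mul_le_mul_of_nonneg_left h1 h0
  have e : σ / (2 * R) = σ / R / 2 := by
    have := h.R0.ne'
    field_simp
  have e' : σ / (4 * R) = σ / R / 4 := by
    have := h.R0.ne'
    field_simp
  rw [h2, e']
  rw [e] at h7
  set t := σ / R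
  have ht : t ≤ 1 / 10 := h.sR
  have ht0 : 0 < t := div_pos h.s0 h.R0
  have h8 : 2 * (m * ((t / 2) ^ 2 * T)) ≤ t / 2 * T := by
    have h9 : m * t ≤ 1 := by nlinarith only [ht, ht0, h0, h.m1]
    have h10 : (m * t) * (t * T) ≤ 1 * (t * T) :=
      mul_le_mul_of_nonneg_right h9 (mul_nonneg ht0.le hT0)
    nlinarith only [h10]
  nlinarith only [h4, h6, h7, h8]

theorem Lv.g1 (h : Lv σ R m μ c z) (a : Fin n ⊕ Fin n) :
    |DD [dr n a] (um n σ R c μ) z| ≤ 2 := by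
  have e : DD [dr n a] (um n σ R c μ) z = fderiv ℝ (um n σ R c μ) z (dr n a) := rfl
  rw [e, h.D1]
  have hF : |Fj n σ R c (fm μ) 1 z| ≤ 9 / 4 := abs_le.2 ⟨by linarith [h.F1.1], h.F1.2⟩
  have hc := h.c4
  have e2 : ∑ i, (z.1 i - z.2 i) * ((dr n a).1 i - (dr n a).2 i) =
      (z.1 (ix a) - z.2 (ix a)) * sg a := by
    simp only [dr_sub, mul_ite, mul_zero, Finset.sum_ite_eq', Finset.mem_univ, if_true]
  have e3 : σ / (2 * R) = 2 * (σ / (4 * R)) := by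
    have := h.R0.ne'
    field_simp
    norm_num
  rw [e2, e3]
  have h1 := mul_le' hF (h.A a)
  have h2 := mul_le' (h.q (ix a)) (abs_sg a).le
  have h3 : |2 * (σ / (4 * R))| ≤ 1 / 20 := by
    rw [abs_of_pos (by linarith [hc.1])]; linarith [hc.2]
  refine (add_le' h1 (mul_le' h3 h2)).trans (by norm_num)

theorem Lv.D1i (h : Lv σ R m μ c z) (a : Fin n ⊕ Fin n) : DD [dr n a] (um n σ R c μ) z =
    Fj n σ R c (fm μ) 1 z * (1 / 2 * wR n σ R (mid z) (ix a)) +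
      σ / R / 2 * ((z.1 (ix a) - z.2 (ix a)) * sg a) := by
  have e : DD [dr n a] (um n σ R c μ) z = fderiv ℝ (um n σ R c μ) z (dr n a) := rfl
  rw [e, h.D1, Aq_dr]
  have e2 : ∑ i, (z.1 i - z.2 i) * ((dr n a).1 i - (dr n a).2 i) =
      (z.1 (ix a) - z.2 (ix a)) * sg a := by
    simp only [dr_sub, mul_ite, mul_zero, Finset.sum_ite_eq', Finset.mem_univ, if_true]
  rw [e2]
  have e3 : σ / (2 * R) = σ / R / 2 := by
    have := h.R0.ne'
    field_simp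
  rw [e3]

theorem Lv.gd (h : Lv σ R m μ c z) (i : Fin n) :
    |DD [dr n (Sum.inl i)] (um n σ R c μ) z - DD [dr n (Sum.inr i)] (um n σ R c μ) z| ≤
      σ / R := by
  rw [h.D1i, h.D1i]
  have e : Fj n σ R c (fm μ) 1 z * (1 / 2 * wR n σ R (mid z) (ix (Sum.inl i))) +
      σ / R / 2 * ((z.1 (ix (Sum.inl i)) - z.2 (ix (Sum.inl i))) * sg (Sum.inl i)) -
      (Fj n σ R c (fm μ) 1 z * (1 / 2 * wR n σ R (mid z) (ix (Sum.inr i))) +
      σ / R / 2 * ((z.1 (ix (Sum.inr i)) - z.2 (ix (Sum.inr i))) * sg (Sum.inr i))) =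
      σ / R * (z.1 i - z.2 i) := by
    simp only [ix, sg, Sum.elim_inl, Sum.elim_inr, id_eq]
    ring
  rw [e, abs_mul, abs_of_pos (div_pos h.s0 h.R0)]
  exact mul_le_of_le_one_right (div_pos h.s0 h.R0).le (h.q i)

theorem Lv.gn (h : Lv σ R m μ c z) :
    1 / 2 ≤ ∑ i, DD [dr n (Sum.inl i)] (um n σ R c μ) z ^ 2 := by
  have hF := h.F1.1
  set F := Fj n σ R c (fm μ) 1 z with hFd
  set t := σ / R with ht
  have ht0 : 0 < t := div_pos h.s0 h.R0
  have ht1 : t ≤ 1 / 10 := h.sR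
  have h1 : ∀ i : Fin n, 9 / 10 * (F * (1 / 2 * wR n σ R (mid z) i)) ^ 2 -
      9 * (t / 2 * (z.1 i - z.2 i)) ^ 2 ≤ DD [dr n (Sum.inl i)] (um n σ R c μ) z ^ 2 := by
    intro i
    rw [h.D1i]
    have e : (z.1 (ix (Sum.inl i : Fin n ⊕ Fin n)) - z.2 (ix (Sum.inl i : Fin n ⊕ Fin n))) *
        sg (Sum.inl i : Fin n ⊕ Fin n) = z.1 i - z.2 i := by
      simp only [ix, sg, Sum.elim_inl, id_eq, mul_one]
    have e' : ix (Sum.inl i : Fin n ⊕ Fin n) = i := rfl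
    rw [e, e']
    set A := F * (1 / 2 * wR n σ R (mid z) i)
    set B := t / 2 * (z.1 i - z.2 i)
    nlinarith only [sq_nonneg (A + 10 * B)]
  have h2 := Finset.sum_le_sum fun i (_ : i ∈ Finset.univ) => h1 i
  refine le_trans ?_ h2
  have e1 : ∑ i, (9 / 10 * (F * (1 / 2 * wR n σ R (mid z) i)) ^ 2 -
      9 * (t / 2 * (z.1 i - z.2 i)) ^ 2) =
      9 / 40 * (F ^ 2 * HY.sq (wR n σ R (mid z))) - 9 / 4 * (t ^ 2 * qq z) := by
    rw [Finset.sum_sub_distrib, H644.qq_eq]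
    unfold HY.sq qv
    rw [Finset.mul_sum, Finset.mul_sum, Finset.mul_sum, Finset.mul_sum]
    refine congrArg₂ _ (Finset.sum_congr rfl fun i _ => by ring)
      (Finset.sum_congr rfl fun i _ => by ring)
  rw [e1]
  have h3 : (7 / 4) ^ 2 * (9 / 10) ≤ F ^ 2 * HY.sq (wR n σ R (mid z)) := by
    have h4 : (7 / 4 : ℝ) ^ 2 ≤ F ^ 2 := by nlinarith only [hF]
    have h5 := h.w0
    calc (7 / 4 : ℝ) ^ 2 * (9 / 10) ≤ F ^ 2 * (9 / 10) := by linarith
      _ ≤ _ := mul_le_mul_of_nonneg_left h5 (sq_nonneg _)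
  have h6 : t ^ 2 * qq z ≤ 1 / 100 := by
    have h7 := h.q1
    have h8 : t ^ 2 ≤ 1 / 100 := by nlinarith only [ht0, ht1]
    have h9 := H644.qq_nonneg z
    calc t ^ 2 * qq z ≤ t ^ 2 * 1 := mul_le_mul_of_nonneg_left h7 (sq_nonneg _)
      _ ≤ _ := by linarith
  linarith only [h3, h6]

end

/-- **The jet of `u`.** -/
theorem Lv.uj {m : ℝ} {μ : ℝ → ℝ} {z : VV n} (h : Lv σ R m μ c z) {U : Set (VV n)}
    (hU : IsOpen U) (hz : z ∈ U) {u : VV n → ℝ} (hu : ∀ w ∈ U, u w = um n σ R c μ w)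
    {η N K : ℝ} {ν : Fin n → ℝ} (hν : ∀ i, ν i = wR n σ R (mid z) i / 2) (hN : 0 ≤ N)
    (h1 : 6 * m + 2 * (σ / R) ≤ η) (h2 : N * (6 * m + 2 * (σ / R)) ≤ η * K) :
    UJ η (6 * m + 2 * (σ / R)) N K ν u z := by
  have hD : ∀ L : List (VV n), DD L u z = DD L (um n σ R c μ) z := fun L =>
    DD_congr hU hu L z hz
  have hf : ∀ v, fderiv ℝ u z v = fderiv ℝ (um n σ R c μ) z v := fun v => hD [v]
  have ht0 : 0 < σ / R := div_pos h.s0 h.R0
  have hm0 := h.m0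
  have hη : 0 ≤ η := by linarith
  refine ⟨fun a => ?_, fun i => ?_, fun L a b => ?_, by linarith, h1, h2, fun v => ?_, ?_,
    fun v => ?_⟩
  · rw [hD]; exact h.g1 a
  · rw [hD, hD]; refine (h.gd i).trans (by linarith)
  · rw [hD]; exact h.hj L a b
  · rw [hD, hf]
    have h3 := h.cv v
    set D := fderiv ℝ (um n σ R c μ) z v
    have h4 : N * -(2 * m * D ^ 2) ≤ N * DD [v, v] (um n σ R c μ) z :=
      mul_le_mul_of_nonneg_left h3 hN
    have h5 : N * (2 * m) ≤ η * K := by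
      have : N * (2 * m) ≤ N * (6 * m + 2 * (σ / R)) :=
        mul_le_mul_of_nonneg_left (by linarith) hN
      linarith
    have h6 : N * (2 * m) * D ^ 2 ≤ η * K * D ^ 2 := mul_le_mul_of_nonneg_right h5 (sq_nonneg _)
    linarith only [h4, h6]
  · simp only [hD]; exact h.gn
  · rw [hf]
    have h3 := h.Asq v
    have e : ∑ i, ν i * (v.1 i + v.2 i) = Aq n σ R v z := by
      unfold Aq
      rw [Finset.mul_sum]
      refine Finset.sum_congr rfl fun i _ => ?_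
      rw [hν]; ring
    rw [e]
    refine h3.trans ?_
    have hT : 0 ≤ ∑ i, (v.1 i - v.2 i) ^ 2 := Finset.sum_nonneg fun i _ => sq_nonneg _
    have e3 : σ / (2 * R) = σ / R / 2 := by
      have := h.R0.ne'
      field_simp
    have h7 : (σ / (2 * R)) ^ 2 ≤ η := by
      rw [e3]
      have := h.sR
      nlinarith only [this, ht0, h1, hm0]
    have := mul_le_mul_of_nonneg_right h7 hT
    linarith

end Vale.Agent.P088.R2.H591.C
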