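import Vale.Agent.P088.R2.H238.C.Nu
import Vale.Agent.P088.R2.H591.C.JC

/-!
# P088, stage 3, zone C, region I: the correction `μ` on region I
-/

open Set Filter
open scoped ContDiff Topology

noncomputable section

namespace Vale.Agent.P088.R2.H591.C

open Vale.Agent.P088.R2.H31.EP
open Vale.Agent.P088.R2.H313.Ph Vale.Agent.P088.R2.H313.Tp Vale.Agent.P088.R2.H313.Mu
open Vale.Agent.P088.R2.H238.C

/-- The sum of the constants of `μ`. -/
def SM : ℝ := |muC 1| + |muC 2| + |muC 3|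

/-- Thresholds for the correction. -/
structure Tm (η : ℝ) (q : Cst) : Prop where
  th : Th q
  cl0 : 0 < q.cl
  Cs1 : 1 ≤ q.Cs
  p0 : 0 ≤ b0 1 q.M₀
  p1 : SM * b0 1 q.M₀ ≤ 1
  p2 : 12 * (SM * b0 1 q.M₀) ≤ η
  p3 : 12 * (SM * b0 1 q.M₀) * q.aC ≤ η * q.cl
  lM : 100 ≤ Real.log q.M₀
  r1 : 4 * q.σ ≤ η * q.R
  r2 : 4 * q.σ * N₁ q ^ (1 / 10 : ℝ) ≤ η * q.R
  r3 : q.σ ≤ q.R / 10

theorem b0_tendsto (C : ℝ) : Tendsto (fun t => C * b0 1 t) atTop (𝓝 0) := by
  have h1 : Tendsto (fun t : ℝ => Real.log t ^ (-(3 / 2) : ℝ)) atTop (𝓝 0) :=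
    (tendsto_rpow_neg_atTop (by norm_num : (0 : ℝ) < 3 / 2)).comp Real.tendsto_log_atTop
  have h2 : Tendsto (fun t : ℝ => C * (1 * Real.log t ^ (-(3 / 2) : ℝ))) atTop (𝓝 (C * (1 * 0))) :=
    (h1.const_mul 1).const_mul C
  simpa [b0] using h2

theorem EvC.tm {η : ℝ} (hη : 0 < η) : EvC (Tm η) := by
  have h1 := EvC.thr
  have h2 := EvC.good
  have h3 : EvC fun q => 0 ≤ b0 1 q.M₀ ∧ SM * b0 1 q.M₀ ≤ 1 ∧ 12 * SM * b0 1 q.M₀ ≤ η ∧
      (0 < q.cl → 12 * SM * q.aC * b0 1 q.M₀ ≤ η * q.cl) ∧ 100 ≤ Real.log q.M₀ := by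
    refine EvC.at_M₀ (fun q t => 0 ≤ b0 1 t ∧ SM * b0 1 t ≤ 1 ∧ 12 * SM * b0 1 t ≤ η ∧
      (0 < q.cl → 12 * SM * q.aC * b0 1 t ≤ η * q.cl) ∧ 100 ≤ Real.log t) fun q => ?_
    have a1 := (b0_tendsto SM).eventually (Iic_mem_nhds (by norm_num : (0 : ℝ) < 1))
    have a2 := (b0_tendsto (12 * SM)).eventually (Iic_mem_nhds hη)
    have a3 : ∀ᶠ t in atTop, 0 < q.cl → 12 * SM * q.aC * b0 1 t ≤ η * q.cl := by
      by_cases hc : 0 < q.cl
      · filter_upwards [(b0_tendsto (12 * SM * q.aC)).eventually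
          (Iic_mem_nhds (mul_pos hη hc))] with t ht _
        exact ht
      · exact Eventually.of_forall fun _ h => absurd h hc
    have a4 := Real.tendsto_log_atTop.eventually_ge_atTop 100
    filter_upwards [a1, a2, a3, a4] with t b1 b2 b3 b4
    refine ⟨?_, b1, b2, b3, b4⟩
    unfold b0
    have : 0 ≤ Real.log t := by linarith
    positivity
  have h4 : EvC fun q => 4 * q.σ ≤ η * q.R ∧ 4 * q.σ * N₁ q ^ (1 / 10 : ℝ) ≤ η * q.R ∧
      q.σ ≤ q.R / 10 := by
    refine EvC.at_R (fun q t => 4 * q.σ ≤ η * t ∧ 4 * q.σ * N₁ q ^ (1 / 10 : ℝ) ≤ η * t ∧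
      q.σ ≤ t / 10) fun q => ?_
    have a1 : Tendsto (fun t : ℝ => η * t) atTop atTop := tendsto_id.const_mul_atTop hη
    have a2 : Tendsto (fun t : ℝ => t / 10) atTop atTop :=
      tendsto_id.atTop_div_const (by norm_num)
    exact (a1.eventually_ge_atTop _).and ((a1.eventually_ge_atTop _).and
      (a2.eventually_ge_atTop _))
  refine (((h1.and h2).and (h3.and h4)).and EvC.pos).mono ?_
  rintro q ⟨⟨⟨T, ⟨⟨-, -, -, g, -⟩, -⟩⟩, ⟨a1, a2, a3, a4, a5⟩, c1, c2, c3⟩, -,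
    ⟨-, -, -, -, e1, -⟩, -⟩
  have hc : 0 < q.cl := g.cl0
  exact ⟨T, hc, e1, a1, a2, by linarith, by linarith [a4 hc], a5, c1, c2, c3⟩

/-- The derivatives of the correction at `s`, level `u`. -/
structure MB {n : ℕ} (q : Cst) (d : Pk n) (η m u s : ℝ) : Prop where
  m0 : 0 ≤ m
  m1 : m ≤ 1
  d1 : |deriv (d.μc q) s| ≤ 1 / 8
  d2 : |iteratedDeriv 2 (d.μc q) s| ≤ m
  d3 : |iteratedDeriv 3 (d.μc q) s| ≤ m
  d4 : |iteratedDeriv 4 (d.μc q) s| ≤ m
  e1 : 6 * m + 2 * (q.σ / q.R) ≤ η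
  e2 : deriv d.Φ u * (6 * m + 2 * (q.σ / q.R)) ≤ η * deriv (deriv d.Φ) u

section

variable {n : ℕ} {q : Cst} {d : Pk n} {η : ℝ}

theorem it_congr {f g : ℝ → ℝ} {s : ℝ} (h : f =ᶠ[𝓝 s] g) (j : ℕ) :
    iteratedDeriv j f s = iteratedDeriv j g s := by
  induction j generalizing f g s with
  | zero => simpa [iteratedDeriv_zero] using h.eq_of_nhds
  | succ j ih =>
    rw [iteratedDeriv_succ', iteratedDeriv_succ']
    exact ih h.deriv

theorem it_const {f : ℝ → ℝ} {s c : ℝ} (h : f =ᶠ[𝓝 s] fun _ => c) (j : ℕ) :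
    iteratedDeriv (j + 1) f s = 0 := by
  rw [it_congr h, iteratedDeriv_succ']
  have : deriv (fun _ : ℝ => c) = fun _ => 0 := by
    funext t; simp
  rw [this]
  exact it_zero j
where
  it_zero (j : ℕ) : iteratedDeriv j (fun _ : ℝ => (0 : ℝ)) s = 0 := by
    induction j with
    | zero => simp
    | succ j ih =>
      rw [iteratedDeriv_succ']
      have : deriv (fun _ : ℝ => (0 : ℝ)) = fun _ => 0 := by
        funext t; simp
      rw [this]; exact ih

/-- **The correction on region I.** -/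
theorem mb (hη : 0 < η) (h : PkOk q d) (T : Tm η q) {u s : ℝ}
    (h1 : deriv d.Φ u ≤ q.aC * Real.exp u)
    (h2 : Real.exp u ≤ 4 * deriv d.Φ u ^ (13 / 5 : ℝ)) (h3 : u ≤ d.utb q)
    (hs : |2 * s + 2 * d.μc q s - u| ≤ 1 / 10) : ∃ m, MB q d η m u s := by
  have TT := T.th
  have hR := TT.R0
  have hR1 := TT.R1
  have hnu := nuI h TT h1 h2 h3
  have hμ : |d.μc q s| ≤ 1 / 8 := (Pk.μc_abs d q s).trans (h.ph.μb s)
  have hμ' := abs_le.1 hμ
  have hs' := abs_le.1 hs
  have hth := uth_ge h TT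
  have hl0 := l0_nn h TT
  have hN0 : 0 < deriv d.Φ u := N_pos h TT u
  have hK0 : 0 < deriv (deriv d.Φ) u := h.top.k0 u
  have hσR : 0 < q.σ / q.R := div_pos TT.σ0 hR
  have eR : q.σ / q.R * q.R = q.σ := div_mul_cancel₀ _ hR.ne'
  have hση : 4 * (q.σ / q.R) ≤ η := by
    have h4 := T.r1
    rw [← eR] at h4
    have h5 : (4 * (q.σ / q.R)) * q.R ≤ η * q.R := by linarith
    exact le_of_mul_le_mul_right h5 hR
  -- the part `2 σ / R`
  have zero_case : iteratedDeriv 2 (d.μc q) s = 0 → iteratedDeriv 3 (d.μc q) s = 0 →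
      iteratedDeriv 4 (d.μc q) s = 0 → |deriv (d.μc q) s| ≤ 1 / 8 →
      deriv d.Φ u * (2 * (q.σ / q.R)) ≤ η * deriv (deriv d.Φ) u →
      ∃ m, MB q d η m u s := by
    intro a2 a3 a4 a1 a5
    refine ⟨0, le_rfl, zero_le_one, a1, ?_, ?_, ?_, by linarith, by linarith⟩
    · rw [a2]; simp
    · rw [a3]; simp
    · rw [a4]; simp
  rcases pass h TT h1 h2 h3 with hp | hp
  · -- first pass
    have hN' := h.top.e1 u hp.2
    have hK' := h.top.e2 u hp.2
    have hrU := TT.rU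
    have hsl : s < d.l₀ q + q.R / 2 := by linarith [hp.1, hμ'.1, hs'.2]
    have hev : d.μc q =ᶠ[𝓝 s] d.μ := by
      filter_upwards [Iio_mem_nhds hsl] with t ht
      exact Pk.μc_eq d q hR (le_of_lt ht)
    have hμs : d.μc q s = d.μ s := hev.eq_of_nhds
    have hN1 : deriv d.Φ u ≤ N₁ q := N_le h TT (by linarith [hp.2])
    have hKN : deriv d.Φ u ≤ deriv (deriv d.Φ) u * N₁ q ^ (1 / 10 : ℝ) := by
      have e : deriv d.Φ u = deriv d.Φ u ^ (9 / 10 : ℝ) * deriv d.Φ u ^ (1 / 10 : ℝ) := by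
        rw [← Real.rpow_add hN0]; norm_num
      calc deriv d.Φ u = deriv d.Φ u ^ (9 / 10 : ℝ) * deriv d.Φ u ^ (1 / 10 : ℝ) := e
        _ ≤ deriv (deriv d.Φ) u * N₁ q ^ (1 / 10 : ℝ) :=
            mul_le_mul hnu.Kl (Real.rpow_le_rpow hN0.le hN1 (by norm_num)) (by positivity)
              hK0.le
    have hσN : deriv d.Φ u * (4 * (q.σ / q.R)) ≤ η * deriv (deriv d.Φ) u := by
      have h4 := T.r2
      rw [← eR] at h4
      have h5 : 4 * (q.σ / q.R) * N₁ q ^ (1 / 10 : ℝ) ≤ η := by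
        have : (4 * (q.σ / q.R) * N₁ q ^ (1 / 10 : ℝ)) * q.R ≤ η * q.R := by linarith
        exact le_of_mul_le_mul_right this hR
      calc deriv d.Φ u * (4 * (q.σ / q.R)) ≤
            deriv (deriv d.Φ) u * N₁ q ^ (1 / 10 : ℝ) * (4 * (q.σ / q.R)) :=
            mul_le_mul_of_nonneg_right hKN (by positivity)
        _ = deriv (deriv d.Φ) u * (4 * (q.σ / q.R) * N₁ q ^ (1 / 10 : ℝ)) := by ring
        _ ≤ deriv (deriv d.Φ) u * η := mul_le_mul_of_nonneg_left h5 hK0.le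
        _ = _ := by ring
    have hd1 : |deriv (d.μc q) s| ≤ 1 / 8 := by
      rw [hev.deriv_eq]
      have a1 := h.ph.isμ.d1 s
      have a2 := h.ph.isμ.d2 s
      have a3 := h.ph.b0
      exact abs_le.2 ⟨by linarith, by linarith⟩
    rcases le_or_gt s (sw q.Cs q.M₀ + 1) with hw | hw
    · -- near the start of `μ`
      set b := b0 1 q.M₀ with hb
      have hb0 : 0 ≤ b := T.p0
      have hbj : ∀ j, j = 1 ∨ j = 2 ∨ j = 3 → |iteratedDeriv (j + 1) (d.μc q) s| ≤ SM * b := by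
        intro j hj
        rw [it_congr hev]
        refine (h.ph.isμ.bj j s).trans (mul_le_mul_of_nonneg_right ?_ hb0)
        unfold SM
        have k1 := abs_nonneg (muC 1)
        have k2 := abs_nonneg (muC 2)
        have k3 := abs_nonneg (muC 3)
        have k4 := le_abs_self (muC 1)
        have k5 := le_abs_self (muC 2)
        have k6 := le_abs_self (muC 3)
        rcases hj with rfl | rfl | rfl <;> linarith
      have hSM : 0 ≤ SM := by unfold SM; positivity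
      have hM0 : 0 < q.M₀ := by linarith [TT.M1]
      have hCs : 0 < q.Cs := by linarith [T.Cs1]
      have hE : Real.exp u ≤ 8 * Real.exp 1 ^ 2 * q.Cs * deriv d.Φ₁ u := by
        have h5 : u ≤ Real.log (q.Cs * q.M₀) + 1 + 1 + 1 := by
          have : sw q.Cs q.M₀ = 1 / 2 * Real.log (q.Cs * q.M₀) := rfl
          linarith [hs'.1, hμ'.2]
        have h6 : Real.exp u ≤ q.Cs * q.M₀ * (Real.exp 1 * Real.exp 1 * Real.exp 1) := by
          refine (Real.exp_le_exp.2 h5).trans (le_of_eq ?_)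
          rw [Real.exp_add, Real.exp_add, Real.exp_add, Real.exp_log (by positivity)]
          ring
        have h7 : Real.exp 1 ≤ 8 := by linarith [Real.exp_one_lt_d9]
        have h8 := h.ph.isΦ.n1 u
        have h9 : 0 ≤ q.Cs * deriv d.Φ₁ u := mul_nonneg hCs.le (by linarith)
        calc Real.exp u ≤ q.Cs * q.M₀ * (Real.exp 1 * Real.exp 1 * Real.exp 1) := h6
          _ ≤ q.Cs * deriv d.Φ₁ u * (Real.exp 1 * Real.exp 1 * 8) := by gcongr
          _ = _ := by ring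
      have hlow := h.ph.low u hE
      rw [← hK'] at hlow
      have hcl := T.cl0
      refine ⟨SM * b, mul_nonneg hSM hb0, T.p1, hd1, hbj 1 (by simp), hbj 2 (by simp),
        hbj 3 (by simp), by linarith [T.p2], ?_⟩
      have k1 : deriv d.Φ u * q.cl ≤ q.aC * deriv (deriv d.Φ) u := by
        calc deriv d.Φ u * q.cl ≤ q.aC * Real.exp u * q.cl :=
              mul_le_mul_of_nonneg_right h1 hcl.le
          _ = q.aC * (q.cl * Real.exp u) := by ring
          _ ≤ _ := mul_le_mul_of_nonneg_left hlow TT.aC0.le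
      have k2 : deriv d.Φ u * (12 * (SM * b)) * q.cl ≤ η * deriv (deriv d.Φ) u * q.cl := by
        calc deriv d.Φ u * (12 * (SM * b)) * q.cl = deriv d.Φ u * q.cl * (12 * (SM * b)) := by ring
          _ ≤ q.aC * deriv (deriv d.Φ) u * (12 * (SM * b)) :=
              mul_le_mul_of_nonneg_right k1 (by positivity)
          _ = 12 * (SM * b) * q.aC * deriv (deriv d.Φ) u := by ring
          _ ≤ η * q.cl * deriv (deriv d.Φ) u := mul_le_mul_of_nonneg_right T.p3 hK0.le
          _ = _ := by ring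
      have k3 := le_of_mul_le_mul_right k2 hcl
      linarith
    · -- `μ'` is constant
      have hlM := T.lM
      have hsz : s < sz q.M₀ := by
        have h5 := h.ph.four u
        have h6 : Real.exp u ≤ q.M₀ ^ (261 / 100 : ℝ) := by
          rw [← hN'] at h5
          exact h2.trans h5
        have hM0 : 0 < q.M₀ := by linarith [TT.M1]
        have h7 := Real.log_le_log (Real.exp_pos _) h6
        rw [Real.log_exp, Real.log_rpow hM0] at h7
        have : sz q.M₀ = 131 / 100 * Real.log q.M₀ := rfl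
        linarith [hs'.2, hμ'.1]
      have hev2 : deriv (d.μc q) =ᶠ[𝓝 s] fun _ => -(b0 1 q.M₀) := by
        have h5 : deriv (d.μc q) =ᶠ[𝓝 s] deriv d.μ := hev.deriv
        refine h5.trans ?_
        filter_upwards [Ioo_mem_nhds hw hsz] with t ht
        exact h.ph.isμ.af t ht.1.le ht.2.le
      refine zero_case ?_ ?_ ?_ hd1 (by nlinarith)
      · rw [iteratedDeriv_succ']; exact it_const hev2 0
      · rw [iteratedDeriv_succ']; exact it_const hev2 1
      · rw [iteratedDeriv_succ']; exact it_const hev2 2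
  · -- reverse pass
    have hsl : d.l₀ q + q.R < s := by
      have : d.uth q = 2 * d.l₀ q + 22 / 10 * q.R := rfl
      linarith [hp.1, hμ'.2, hs'.1]
    have hev : d.μc q =ᶠ[𝓝 s] fun _ => 0 := by
      filter_upwards [Ioi_mem_nhds hsl] with t ht
      exact Pk.μc_zero d q hR (le_of_lt ht)
    have hta := uth_uta h TT
    have hx := h.top.x1 u (by linarith [hp.1]) (by linarith [hp.2])
    refine zero_case (it_const hev 1) (it_const hev 2) (it_const hev 3) ?_ ?_
    · rw [hev.deriv_eq]; simp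
    · rw [hx]
      have : deriv d.Φ u * (4 * (q.σ / q.R)) ≤ deriv d.Φ u * η :=
        mul_le_mul_of_nonneg_left hση hN0.le
      nlinarith

end

end Vale.Agent.P088.R2.H591.C
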