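import Vale.Agent.P088.R2.H238.C.Loc
import Vale.Agent.P088.R2.H591.C.JM

/-!
# P088, stage 3, zone C, region I: the jets of the true level `u` on region I (both passes)
-/

open Set Filter
open scoped ContDiff Topology

noncomputable section

namespace Vale.Agent.P088.R2.H591.C

open Vale.Agent.P088.LR Vale.Agent.P088.HY
open Vale.Agent.P088.R2.H31.EP
open Vale.Agent.P088.R2.H464.Cu (mid)
open Vale.Agent.P088.R2.H475 (wR)
open Vale.Agent.P088.R2.H644 (qq)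
open Vale.Agent.P088.R2.H238.C
open Vale.Agent.P088.R2.H205.CP (OI nuL)

variable {n : ℕ} {q : Cst} {d : Pk n}

/-- The level at the midpoint is the quadratic one. -/
theorem ql_eq (h : PkOk q d) (T : Th q) {z : VV n} (hz : z ∈ Gz q d) :
    ql n q.σ q.R (d.l₀ q) z = d.l (mid z) := (Gp_lit h T hz.2.2.1).symm

/-- `u` on `Gz`. -/
theorem u_um (h : PkOk q d) (T : Th q) {z : VV n} (hz : z ∈ Gz q d) :
    d.u q z = um n q.σ q.R (d.l₀ q) (d.μc q) z := by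
  rw [u_Gz' h T hz]
  unfold um fm
  rw [ql_eq h T hz]
  rfl

theorem qq_le (T : Th q) {z : VV n} (L : LI q d z) : qq z ≤ 1 / 100 := by
  have h1 := L.δ
  have h2 := T.c0
  have h3 := T.c1
  have h4 : HY.sq (z.1 - z.2) = √(HY.sq (z.1 - z.2)) ^ 2 :=
    (Real.sq_sqrt (H475.sq0 _)).symm
  have h5 : qq z = HY.sq (z.1 - z.2) := rfl
  rw [h5, h4]
  have h6 := Real.sqrt_nonneg (HY.sq (z.1 - z.2))
  nlinarith

/-- The level data at a point of region I. -/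
theorem lv_of (h : PkOk q d) {η : ℝ} (T : Tm η q) {z : VV n} (L : LI q d z) {m : ℝ}
    (hm : MB q d η m (d.u q z) (d.l (mid z))) :
    Lv q.σ q.R m (d.μc q) (d.l₀ q) z := by
  have TT := T.th
  have e := ql_eq h TT L.gz
  have hw := Gp_sq h TT L.gz.2.2.1
  have hσ := TT.σ1
  refine ⟨TT.σ0, TT.R0, ?_, Pk.μc_smooth d q h.ph.isμ.sm, hm.m0, hm.m1, ?_, ?_, ?_, ?_, ?_, ?_,
    ?_⟩
  · rw [div_le_iff₀ TT.R0]
    have := T.r3
    linarith
  · have : HY.sq (ww n q (mid z)) = HY.sq (wR n q.σ q.R (mid z)) := rfl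
    rw [← this]; linarith [hw.1]
  · have : HY.sq (ww n q (mid z)) = HY.sq (wR n q.σ q.R (mid z)) := rfl
    rw [← this]; linarith [hw.2]
  · exact (qq_le TT L).trans (by norm_num)
  · rw [e]; exact hm.d1
  · rw [e]; exact hm.d2
  · rw [e]; exact hm.d3
  · rw [e]; exact hm.d4

theorem mb_LI {η : ℝ} (hη : 0 < η) (h : PkOk q d) (T : Tm η q) {z : VV n} (L : LI q d z)
    (hz : z ∈ OI q d) : ∃ m, MB q d η m (d.u q z) (d.l (mid z)) := by
  refine mb hη h T hz.2.2.1 hz.2.2.2.1 hz.2.2.2.2 ?_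
  have TT := T.th
  rw [u_Gz' h TT L.gz]
  have h1 : HY.sq (z.1 - z.2) ≤ 1 / 100 := qq_le TT L
  have h2 : 0 ≤ HY.sq (z.1 - z.2) := H475.sq0 _
  have h3 : q.σ / (4 * q.R) ≤ 1 := by
    rw [div_le_iff₀ (by linarith [TT.R0])]
    have := T.r3
    linarith [TT.R0]
  have h4 : 0 ≤ q.σ / (4 * q.R) := by
    have := TT.σ0
    have := TT.R0
    positivity
  have h5 : q.σ / (4 * q.R) * HY.sq (z.1 - z.2) ≤ 1 * (1 / 100) :=
    mul_le_mul h3 h1 h2 zero_le_one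
  have h6 := mul_nonneg h4 h2
  rw [abs_le]
  constructor <;> linarith

/-- **The jet of `u` on region I** (both passes). -/
theorem uj (n : ℕ) {η : ℝ} (hη : 0 < η) : EvC fun q => ∀ d : Pk n, PkOk q d → ∀ z ∈ OI q d,
    ∃ ρ, UJ η ρ (d.N q z) (d.Kf q z) (fun i => nuL d i z) (d.u q) z := by
  refine ((H238.C.loc n).and (EvC.tm hη)).mono ?_
  rintro q ⟨⟨T, E, hL⟩, TM⟩ d h z hz
  have L := hL d h z hz
  obtain ⟨m, hm⟩ := mb_LI hη h TM L hz
  have hv := lv_of h TM L hm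
  refine ⟨6 * m + 2 * (q.σ / q.R), hv.uj (isOpen_Gz h T E) L.gz
    (fun w hw => u_um h T hw) (fun i => ?_) (N_pos h T _).le hm.e1 hm.e2⟩
  have h1 : fderiv ℝ d.l (mid z) (Pi.single i 1) = ww n q (mid z) i :=
    Gp_pd h T L.gz.2.2.1 i
  show fderiv ℝ d.l (mid z) (Pi.single i 1) / 2 = _
  rw [h1]
  rfl

end Vale.Agent.P088.R2.H591.C
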