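import Vale.Agent.P088.R2.H591.C.JA

/-!
# P088, stage 3, zone C, region I: the jets of the level `u`
-/

open Set Filter
open scoped ContDiff Topology

noncomputable section

namespace Vale.Agent.P088.R2.H591.C

open Vale.Agent.P088.LR Vale.Agent.P088.HY
open Vale.Agent.P088.R2.H464.Cu (mid dif Hv mid_apply contDiff_mid)
open Vale.Agent.P088.R2.H475 (wR)
open Vale.Agent.P088.R2.H644 (qq qv)
open Vale.Agent.P088.R2.H973.W (DD dr)
open Vale.Agent.P088.R2.H961.GW (Sm)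

variable {n : ℕ} {σ R c : ℝ}

/-- The jet of the level at a point: `N = Φ'(u)`, `K = Φ''(u)`. -/
structure UJ (η ρ N K : ℝ) (ν : Fin n → ℝ) (u : VV n → ℝ) (z : VV n) : Prop where
  g1 : ∀ a, |DD [dr n a] u z| ≤ 2
  gd : ∀ i, |DD [dr n (Sum.inl i)] u z - DD [dr n (Sum.inr i)] u z| ≤ η
  hj : ∀ L : List (Fin n ⊕ Fin n), 2 ≤ L.length → L.length ≤ 4 → |DD (L.map (dr n)) u z| ≤ ρ
  r0 : 0 ≤ ρ
  r1 : ρ ≤ η
  rN : N * ρ ≤ η * K
  cv : ∀ v : VV n, -(η * K * fderiv ℝ u z v ^ 2) ≤ N * DD [v, v] u z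
  gn : 1 / 2 ≤ ∑ i, DD [dr n (Sum.inl i)] u z ^ 2
  nu : ∀ v : VV n, (∑ i, ν i * (v.1 i + v.2 i)) ^ 2 ≤
    fderiv ℝ u z v ^ 2 + η * ∑ i, (v.1 i - v.2 i) ^ 2

/-- The index of a coordinate direction. -/
def ix (a : Fin n ⊕ Fin n) : Fin n := Sum.elim id id a

/-- The sign of a coordinate direction. -/
def sg (a : Fin n ⊕ Fin n) : ℝ := Sum.elim (fun _ => 1) (fun _ => -1) a

theorem dr_add (a : Fin n ⊕ Fin n) (i : Fin n) :
    (dr n a).1 i + (dr n a).2 i = if i = ix a then 1 else 0 := by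
  rcases a with j | j
  · change (Pi.single j (1 : ℝ) : V n) i + (0 : V n) i = if i = j then 1 else 0
    rw [Pi.single_apply, Pi.zero_apply, add_zero]
  · change (0 : V n) i + (Pi.single j (1 : ℝ) : V n) i = if i = j then 1 else 0
    rw [Pi.single_apply, Pi.zero_apply, zero_add]

theorem dr_sub (a : Fin n ⊕ Fin n) (i : Fin n) :
    (dr n a).1 i - (dr n a).2 i = if i = ix a then sg a else 0 := by
  rcases a with j | j
  · change (Pi.single j (1 : ℝ) : V n) i - (0 : V n) i = if i = j then 1 else 0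
    rw [Pi.single_apply, Pi.zero_apply, sub_zero]
  · change (0 : V n) i - (Pi.single j (1 : ℝ) : V n) i = if i = j then -1 else 0
    rw [Pi.single_apply, Pi.zero_apply, zero_sub]
    split_ifs <;> simp

theorem abs_sg (a : Fin n ⊕ Fin n) : |sg a| = 1 := by
  rcases a with j | j <;> simp [sg]

theorem Aq_dr (a : Fin n ⊕ Fin n) (z : VV n) :
    Aq n σ R (dr n a) z = 1 / 2 * wR n σ R (mid z) (ix a) := by
  unfold Aq
  simp only [dr_add, mul_ite, mul_one, mul_zero, Finset.sum_ite_eq', Finset.mem_univ, if_true]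

theorem cq_dr (a b : Fin n ⊕ Fin n) : |cq σ R (dr n a) (dr n b)| ≤ |σ / (4 * R)| := by
  unfold cq
  rw [abs_mul]
  refine mul_le_of_le_one_right (abs_nonneg _) ?_
  simp only [dr_add, ite_mul, one_mul, zero_mul, Finset.sum_ite_eq', Finset.mem_univ, if_true]
  split_ifs <;> simp

theorem dq_dr (a b : Fin n ⊕ Fin n) : |dq2 (dr n a) (dr n b)| ≤ 2 := by
  unfold dq2
  simp only [dr_sub, ite_mul, zero_mul, Finset.sum_ite_eq', Finset.mem_univ, if_true]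
  split_ifs
  · rw [abs_mul, abs_mul, abs_sg, abs_sg]; norm_num
  · simp

/-- The data of the level at a point. -/
structure Lv (σ R m : ℝ) (μ : ℝ → ℝ) (c : ℝ) (z : VV n) : Prop where
  s0 : 0 < σ
  R0 : 0 < R
  sR : σ / R ≤ 1 / 10
  μs : ContDiff ℝ ∞ μ
  m0 : 0 ≤ m
  m1 : m ≤ 1
  w0 : 9 / 10 ≤ HY.sq (wR n σ R (mid z))
  w1 : HY.sq (wR n σ R (mid z)) ≤ 121 / 100
  q1 : qq z ≤ 1
  d1 : |deriv μ (ql n σ R c z)| ≤ 1 / 8
  d2 : |iteratedDeriv 2 μ (ql n σ R c z)| ≤ m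
  d3 : |iteratedDeriv 3 μ (ql n σ R c z)| ≤ m
  d4 : |iteratedDeriv 4 μ (ql n σ R c z)| ≤ m

/-- `f = 2 s + 2 μ`. -/
def fm (μ : ℝ → ℝ) (s : ℝ) : ℝ := 2 * s + 2 * μ s

theorem fm_smooth {μ : ℝ → ℝ} (h : ContDiff ℝ ∞ μ) : ContDiff ℝ ∞ (fm μ) :=
  (contDiff_const.mul contDiff_id).add (contDiff_const.mul h)

theorem fm1 {μ : ℝ → ℝ} (h : ContDiff ℝ ∞ μ) : deriv (fm μ) = fun s => 2 + 2 * deriv μ s := by
  funext s
  have h1 : HasDerivAt (fm μ) (2 * 1 + 2 * deriv μ s) s :=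
    ((hasDerivAt_id s).const_mul 2).add (((h.differentiable (by simp) s).hasDerivAt).const_mul 2)
  rw [h1.deriv]; ring

theorem fm2 {μ : ℝ → ℝ} (h : ContDiff ℝ ∞ μ) (j : ℕ) (s : ℝ) :
    iteratedDeriv (j + 2) (fm μ) s = 2 * iteratedDeriv (j + 2) μ s := by
  have h1 : ContDiff ℝ ∞ (deriv μ) := (contDiff_infty_iff_deriv.1 h).2
  have h2 : deriv (deriv (fm μ)) = fun s => 2 * deriv (deriv μ) s := by
    funext s
    rw [fm1 h]
    have h3 : HasDerivAt (fun s => 2 + 2 * deriv μ s) (0 + 2 * deriv (deriv μ) s) s :=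
      (hasDerivAt_const s (2 : ℝ)).add
        (((h1.differentiable (by simp) s).hasDerivAt).const_mul 2)
    rw [h3.deriv]; ring
  rw [iteratedDeriv_succ', iteratedDeriv_succ', h2, iteratedDeriv_succ', iteratedDeriv_succ',
    iteratedDeriv_const_mul_field]

section

variable {m : ℝ} {μ : ℝ → ℝ} {z : VV n}

theorem Lv.F1 (h : Lv σ R m μ c z) :
    7 / 4 ≤ Fj n σ R c (fm μ) 1 z ∧ Fj n σ R c (fm μ) 1 z ≤ 9 / 4 := by
  unfold Fj
  rw [iteratedDeriv_one, fm1 h.μs]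
  have := abs_le.1 h.d1
  constructor <;> simp only <;> linarith [this.1, this.2]

theorem Lv.F2 (h : Lv σ R m μ c z) : |Fj n σ R c (fm μ) 2 z| ≤ 2 * m := by
  unfold Fj
  rw [fm2 h.μs 0, abs_mul, abs_of_pos (by norm_num : (0 : ℝ) < 2)]
  have := h.d2
  have e : (0 + 2 : ℕ) = 2 := rfl
  rw [e]
  linarith

theorem Lv.F3 (h : Lv σ R m μ c z) : |Fj n σ R c (fm μ) 3 z| ≤ 2 * m := by
  unfold Fj
  rw [fm2 h.μs 1, abs_mul, abs_of_pos (by norm_num : (0 : ℝ) < 2)]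
  have := h.d3
  have e : (1 + 2 : ℕ) = 3 := rfl
  rw [e]
  linarith

theorem Lv.F4 (h : Lv σ R m μ c z) : |Fj n σ R c (fm μ) 4 z| ≤ 2 * m := by
  unfold Fj
  rw [fm2 h.μs 2, abs_mul, abs_of_pos (by norm_num : (0 : ℝ) < 2)]
  have := h.d4
  have e : (2 + 2 : ℕ) = 4 := rfl
  rw [e]
  linarith

theorem Lv.w (h : Lv σ R m μ c z) (i : Fin n) : |wR n σ R (mid z) i| ≤ 11 / 10 := by
  have h1 : wR n σ R (mid z) i ^ 2 ≤ HY.sq (wR n σ R (mid z)) :=
    Finset.single_le_sum (f := fun i => wR n σ R (mid z) i ^ 2) (fun j _ => sq_nonneg _)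
      (Finset.mem_univ i)
  refine abs_le_of_sq_le_sq (h1.trans (h.w1.trans (by norm_num))) (by norm_num)

theorem Lv.A (h : Lv σ R m μ c z) (a : Fin n ⊕ Fin n) : |Aq n σ R (dr n a) z| ≤ 11 / 20 := by
  rw [Aq_dr, abs_mul, abs_of_pos (by norm_num : (0 : ℝ) < 1 / 2)]
  have := h.w (ix a)
  linarith

theorem Lv.q (h : Lv σ R m μ c z) (i : Fin n) : |z.1 i - z.2 i| ≤ 1 := by
  have h1 : (z.1 i - z.2 i) ^ 2 ≤ qq z := by
    rw [H644.qq_eq]
    exact Finset.single_le_sum (f := fun i => qv i z ^ 2) (fun j _ => sq_nonneg _)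
      (Finset.mem_univ i)
  refine abs_le_of_sq_le_sq (h1.trans (h.q1.trans (by norm_num))) (by norm_num)

theorem Lv.c4 (h : Lv σ R m μ c z) : 0 < σ / (4 * R) ∧ σ / (4 * R) ≤ 1 / 40 := by
  have h1 := h.s0
  have h2 := h.R0
  have h3 := h.sR
  have e : σ / (4 * R) = σ / R / 4 := by field_simp
  refine ⟨by positivity, ?_⟩
  rw [e]; linarith

theorem Lv.cc (h : Lv σ R m μ c z) (a b : Fin n ⊕ Fin n) :
    |cq σ R (dr n a) (dr n b)| ≤ σ / (4 * R) :=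
  (cq_dr a b).trans (abs_of_pos h.c4.1).le

end

end Vale.Agent.P088.R2.H591.C
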