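import Vale.Agent.P088.R2.H591.C.JetS

/-!
# P088, stage 3, zone C, region I: the first derivatives of the weight against the flat model
-/

open Set Filter
open scoped ContDiff Topology

noncomputable section

namespace Vale.Agent.P088.R2.H591.C

open Vale.Agent.P088.LR Vale.Agent.P088.HY
open Vale.Agent.P088.R2.H31.EP
open Vale.Agent.P088.R2.H464.Cu (mid dif midL midL_apply)
open Vale.Agent.P088.R2.H644 (qq)
open Vale.Agent.P088.R2.H238.C
open Vale.Agent.P088.R2.H222 (Bk Ck)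
open Vale.Agent.P088.R2.H657.W (cG cG_nn)
open Vale.Agent.P088.R2.H205.CP (OI nuL)

variable {n : ℕ} {q : Cst} {d : Pk n}

/-- The part of `Ga` below `uth / 2`. -/
def Gb (q : Cst) (d : Pk n) : Set (VV n) := Ga q d ∩ {z | d.u q z < d.uth q / 2}

theorem isOpen_Gb (h : PkOk q d) (T : Th q) (E : Te n q) : IsOpen (Gb q d) := by
  have h2 : ContinuousOn (d.u q) (Ga q d) :=
    ((u_smO h T).continuousOn).mono fun z hz => hz.1.1
  exact h2.isOpen_inter_preimage (isOpen_Ga h T E) isOpen_Iio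

/-- **First pass: the weight is close to the flat model in `C⁴`.** -/
theorem first_bk (hn : 1 ≤ n) (q0 : Cst) : ∃ C : ℝ, 0 ≤ C ∧ ∀ q : Cst, q.b_ε = q0 → Th q →
    Te n q → C * q.ε ≤ 1 → ∀ d : Pk n, PkOk q d →
    Bk 4 (Gb q d) (C * q.ε) (fun z => d.W q z - Wf q d z) ∧ Bk 4 (Gb q d) C (d.W q) ∧
      Bk 4 (Gb q d) C (Wf q d) := by
  by_cases hc : (0 < q0.σ ∧ q0.σ ≤ 1 / 5000) ∧ ContDiff ℝ ∞ q0.μ₁ ∧ ContDiff ℝ ∞ q0.Φ₁ ∧
      ContDiff ℝ ∞ (prS q0.e₁)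
  swap
  · refine ⟨0, le_rfl, ?_⟩
    rintro q rfl T E - d h
    refine absurd ⟨⟨T.σ0, T.σ1⟩, ?_, ?_, ?_⟩ hc
    · have := h.ph.isμ.sm
      rw [h.eμ] at this
      exact this
    · have := h.ph.isΦ.sm
      rw [h.eΦ] at this
      exact this
    · exact h.ok.Ss
  obtain ⟨⟨h0, h1⟩, hμ, hΦ, hS⟩ := hc
  obtain ⟨B, hB, hbk⟩ := bk_u (n := n) hn q0 h0 h1 hμ
  obtain ⟨C1, hC1, hwf⟩ := wf_close (n := n) hΦ hS (r0 := 2) (by norm_num) 4 (-1) (U₁ q0 + 1) B
  set G := cG n 12 with hG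
  have hG0 : 0 ≤ G := cG_nn n 12
  have hCG : 0 ≤ C1 * G := mul_nonneg hC1 hG0
  set A := C1 * G + G + C1 with hA
  have hA0 : 0 ≤ A := by linarith
  refine ⟨A, hA0, ?_⟩
  rintro q rfl T E hε d h
  have hε0 := E.ε0
  have hGε : G * q.ε ≤ A * q.ε := mul_le_mul_of_nonneg_right (by linarith) hε0.le
  have hGε0 : 0 ≤ G * q.ε := by positivity
  have hU := isOpen_Gb h T E
  have bu : Bk 4 (Gb q d) B (d.u q) :=
    (hbk q rfl T E d h).mono le_rfl le_rfl inter_subset_left hU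
  obtain ⟨w1, w2, w3⟩ := hwf (G * q.ε) hGε0 (hGε.trans hε) univ (Gb q d) (d.u q) (gi d.s₁)
    (ck_g h T E) hU bu (fun w hw => ⟨hw.1.2.1.le, hw.1.2.2.le⟩) (fun w _ => mem_univ _)
    (fun w hw => qq_Gz h T E hw.1.1.1)
  have eΦ : ∀ w ∈ Gb q d, d.Φ (d.u q w) = q.b_ε.Φ₁ (d.u q w) := fun w hw => by
    rw [h.top.eq _ (le_of_lt hw.2), h.eΦ]
    rfl
  have eW : ∀ w ∈ Gb q d, d.W q w =
      wS q.b_ε.Φ₁ (prS q.b_ε.e₁) (d.u q) (r2 (gi d.s₁)) w := by
    intro w hw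
    rw [W_Gz h T E hw.1.1.1]
    unfold wS
    rw [eΦ w hw]
    rfl
  have eF : ∀ w ∈ Gb q d, Wf q d w = wS q.b_ε.Φ₁ (prS q.b_ε.e₁) (d.u q) H222.qq w := by
    intro w hw
    unfold wS Wf
    rw [eΦ w hw]
    rfl
  refine ⟨?_, (w2.congr fun w hw => eW w hw).le (by linarith),
    (w3.congr fun w hw => eF w hw).le (by linarith)⟩
  refine (w1.congr fun w hw => ?_).le ?_
  · rw [eW w hw, eF w hw]
  · have : C1 * (G * q.ε) = C1 * G * q.ε := by ring
    rw [this]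
    exact mul_le_mul_of_nonneg_right (by linarith) hε0.le

/-- The constant of `first_bk`. -/
def CK (n : ℕ) (q : Cst) : ℝ := if h : 1 ≤ n then (first_bk h q).choose else 0

theorem CK_nn (n : ℕ) (q : Cst) : 0 ≤ CK n q := by
  unfold CK
  split_ifs with h
  · exact (first_bk h q).choose_spec.1
  · exact le_rfl

/-- The points of region I on the first pass are in `Gb`. -/
theorem LI.gb (h : PkOk q d) (T : Th q) {z : VV n} (L : LI q d z) (hp : d.u q z ≤ U₁ q)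
    (hz : z ∈ Gz1 q d) : z ∈ Gb q d := by
  refine ⟨⟨hz, ?_⟩, ?_⟩
  · have := L.nu.u0
    exact ⟨by linarith, by linarith⟩
  · have := T.rU
    have := uth_ge h T
    have := T.R1
    show d.u q z < d.uth q / 2
    linarith

/-- Directional derivatives of the difference. -/
theorem fd_sub_le {U : Set (VV n)} {e : ℝ} {W W' : VV n → ℝ}
    (h1 : Bk 4 U e (fun z => W z - W' z)) (hW : ContDiffOn ℝ ∞ W U) (hW' : ContDiffOn ℝ ∞ W' U)
    {z v : VV n} (hz : z ∈ U) (hv : ‖v‖ ≤ 1) : |fderiv ℝ W z v - fderiv ℝ W' z v| ≤ e := by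
  have hd : ∀ {f : VV n → ℝ}, ContDiffOn ℝ ∞ f U → DifferentiableAt ℝ f z := fun hf =>
    ((hf z hz).contDiffAt (h1.o.mem_nhds hz)).differentiableAt (by simp)
  have e1 : fderiv ℝ W z v - fderiv ℝ W' z v = fderiv ℝ (fun z => W z - W' z) z v := by
    rw [fderiv_fun_sub (hd hW) (hd hW')]; rfl
  have h2 := h1.b 1 (by norm_num) z hz
  rw [norm_iteratedFDeriv_one] at h2
  rw [e1, ← Real.norm_eq_abs]
  refine (ContinuousLinearMap.le_opNorm _ _).trans ?_
  refine (mul_le_of_le_one_right (norm_nonneg _) hv).trans h2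

/-- **First derivatives** of the weight against the flat model. -/
theorem jet1 (n : ℕ) (hn : 1 ≤ n) {ep : ℝ} (hep : 0 < ep) : EvC fun q => ∀ d : Pk n,
    PkOk q d → ∀ z ∈ OI q d, ∀ i : Fin n,
      (d.E q z + 1) * (dx i (d.W q) z - dx i (Wf q d) z) ^ 2 ≤ ep ∧
      (d.E q z + 1) * (dy i (d.W q) z - dy i (Wf q d) z) ^ 2 ≤ ep := by
  have h1 : EvC fun q => CK n q.b_ε * q.ε ≤ 1 ∧
      (Real.exp (U₁ q.b_ε) + 1) * CK n q.b_ε * q.ε ≤ ep := by
    refine EvC.at_ε (fun q t => CK n q * t ≤ 1 ∧ (Real.exp (U₁ q) + 1) * CK n q * t ≤ ep)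
      fun q => ?_
    have key : ∀ c : ℝ, 0 ≤ c → ∀ b : ℝ, 0 < b → ∀ᶠ t in sml, c * t ≤ b := by
      intro c hc b hb
      filter_upwards [sml_pos, sml_le (a := b / (c + 1)) (by positivity)] with t h1 h2
      rw [le_div_iff₀ (by positivity)] at h2
      nlinarith
    have hC := CK_nn n q
    exact (key _ hC 1 one_pos).and (key _ (by positivity) ep hep)
  refine ((H238.C.loc n).and h1).mono ?_
  rintro q ⟨⟨T, E, hL⟩, hε, hε2⟩ d h z hz i
  have L := hL d h z hz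
  have nx : ‖((Pi.single i 1, 0) : VV n)‖ ≤ 1 := by
    simp only [Prod.norm_def, norm_zero, Pi.norm_single, norm_one]; simp
  have ny : ‖((0, Pi.single i 1) : VV n)‖ ≤ 1 := by
    simp only [Prod.norm_def, norm_zero, Pi.norm_single, norm_one]; simp
  rcases L.pass with hp | hp
  · have hC : CK n q.b_ε = (first_bk hn q.b_ε).choose := dif_pos hn
    have hs := (first_bk hn q.b_ε).choose_spec.2 q rfl T E (by rw [← hC]; exact hε) d h
    rw [← hC] at hs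
    have hzb := LI.gb h T L hp.1 hp.2
    have hE : d.E q z ≤ Real.exp (U₁ q) := Real.exp_le_exp.2 hp.1
    have hE0 : 0 < d.E q z := Real.exp_pos _
    have hε0 := E.ε0
    have hC0 := CK_nn n q.b_ε
    have fin : ∀ a : ℝ, |a| ≤ CK n q.b_ε * q.ε → (d.E q z + 1) * a ^ 2 ≤ ep := by
      intro a ha
      have h0 : 0 ≤ CK n q.b_ε * q.ε := mul_nonneg hC0 hε0.le
      have h2 : a ^ 2 ≤ CK n q.b_ε * q.ε := by
        rw [← sq_abs]
        calc |a| ^ 2 ≤ (CK n q.b_ε * q.ε) ^ 2 := pow_le_pow_left₀ (abs_nonneg _) ha 2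
          _ ≤ CK n q.b_ε * q.ε := by nlinarith
      calc (d.E q z + 1) * a ^ 2 ≤ (Real.exp (U₁ q) + 1) * (CK n q.b_ε * q.ε) :=
            mul_le_mul (by linarith) h2 (sq_nonneg _) (by positivity)
        _ = (Real.exp (U₁ q.b_ε) + 1) * CK n q.b_ε * q.ε := by
            rw [mul_assoc]; rfl
        _ ≤ ep := hε2
    exact ⟨fin _ (fd_sub_le hs.1 hs.2.1.s hs.2.2.s hzb nx),
      fin _ (fd_sub_le hs.1 hs.2.1.s hs.2.2.s hzb ny)⟩
  · have hU := isOpen_Gz2 h T E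
    have eW : d.W q =ᶠ[𝓝 z] Wf q d := by
      filter_upwards [hU.mem_nhds hp.2] with w hw
      rw [W_Gz h T E hw.1, r2_Gz2 hn h T hw]
      rfl
    have ex : dx i (d.W q) z = dx i (Wf q d) z := by
      rw [dx_eq, dx_eq]; unfold dd; rw [eW.fderiv_eq]
    have ey : dy i (d.W q) z = dy i (Wf q d) z := by
      rw [dy_eq, dy_eq]; unfold dd; rw [eW.fderiv_eq]
    rw [ex, ey]
    constructor <;> simp [hep.le]

end Vale.Agent.P088.R2.H591.C
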