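import Vale.Agent.P088.R2.H591.C.JS3

/-!
# P088, stage 3, zone C, region I: the star density against the flat model, both passes
-/

open Set Filter
open scoped ContDiff Topology

noncomputable section

namespace Vale.Agent.P088.R2.H591.C

open Vale.Agent.P088.LR Vale.Agent.P088.HY
open Vale.Agent.P088.R2.H31.EP
open Vale.Agent.P088.R2.H464.Cu (mid dif midL midL_apply)
open Vale.Agent.P088.R2.H644 (qq)
open Vale.Agent.P088.R2.H238.C
open Vale.Agent.P088.R2.H973.W (Nk Jt N3 sta_flat)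
open Vale.Agent.P088.R2.H551.E (sta nX)
open Vale.Agent.P088.R2.H205.CP (OI nuL)

variable {n : ℕ} {q : Cst} {d : Pk n}

theorem pd_on {O : Set (V n)} (hO : IsOpen O) {f : V n → ℝ} {c : ℝ} (h : ∀ x ∈ O, f x = c)
    (k : Fin n) : ∀ x ∈ O, pd k f x = 0 := by
  intro x hx
  have h1 : f =ᶠ[𝓝 x] fun _ => c := by
    filter_upwards [hO.mem_nhds hx] with y hy using h y hy
  unfold pd
  rw [h1.fderiv_eq]
  simp

theorem n3_zero {O : Set (V n)} (hO : IsOpen O) {s : MF n}
    (hs : ∀ i j, ContDiff ℝ ∞ fun x => s x i j) (h : ∀ x ∈ O, s x = 1) : N3 O 0 0 0 0 s := by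
  have h0 : ∀ i j, ∀ x ∈ O, s x i j = (1 : Matrix (Fin n) (Fin n) ℝ) i j := fun i j x hx => by
    rw [h x hx]
  have h1 : ∀ i j k, ∀ x ∈ O, pd k (fun y => s y i j) x = 0 := fun i j k => pd_on hO (h0 i j) k
  have h2 : ∀ i j k l, ∀ x ∈ O, pd l (pd k fun y => s y i j) x = 0 := fun i j k l =>
    pd_on hO (h1 i j k) l
  have h3 : ∀ i j k l m, ∀ x ∈ O, pd m (pd l (pd k fun y => s y i j)) x = 0 := fun i j k l m =>
    pd_on hO (h2 i j k l) m
  refine ⟨fun i j => (hs i j).contDiffOn, fun x hx i j => ?_, fun x hx k i j => ?_,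
    fun x hx l k i j => ?_, fun x hx m l k i j => ?_⟩
  · rw [h0 i j x hx]; simp
  · rw [h1 i j k x hx]; simp
  · rw [h2 i j k l x hx]; simp
  · rw [h3 i j k l m x hx]; simp

theorem Nk_zero_of {U : Set (VV n)} (hU : IsOpen U) {W : VV n → ℝ} (h : ∀ z ∈ U, W z = 0)
    {z : VV n} (hz : z ∈ U) (j : ℕ) : Nk j W z = 0 := by
  have h1 : W =ᶠ[𝓝 z] fun _ => 0 := by
    filter_upwards [hU.mem_nhds hz] with y hy using h y hy
  unfold Nk
  have h2 := (h1.iteratedFDeriv ℝ j).eq_of_nhds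
  rw [h2]
  rcases Nat.eq_zero_or_pos j with rfl | hj
  · rw [norm_iteratedFDeriv_zero]; simp
  · rw [iteratedFDeriv_const_of_ne (by omega)]; simp

/-- **Reverse pass.** -/
theorem second (hn : 1 ≤ n) (h : PkOk q d) (T : Th q) (E : Te n q) {z : VV n}
    (hz : z ∈ Gz2 q d) (f g : VV n → ℝ) :
    sta d.sx d.sy 0 0 (d.W q) f g z =
      sta (H644.Ch.fx n) (H644.Ch.fy n) 0 0 (Wf q d) f g z := by
  have hU := isOpen_Gz2 h T E
  set O : Set (V n) := {x | d.l₀ q + 105 / 100 * q.R < d.l x} with hOd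
  have hO : IsOpen O := isOpen_lt continuous_const (l_sm h).continuous
  have n1 : N3 O 0 0 0 0 d.s₁ := n3_zero hO h.rg.sm₁ fun x hx =>
    (flat_of_level hn h T (le_of_lt hx)).1
  have n2 : N3 O 0 0 0 0 d.s₂ := n3_zero hO h.rg.sm₂ fun x hx =>
    (flat_of_level hn h T (le_of_lt hx)).2
  have eW : ∀ w ∈ Gz2 q d, d.W q w = Wf q d w := by
    intro w hw
    rw [W_Gz h T E hw.1, r2_Gz2 hn h T hw]
    rfl
  have sF : ContDiffOn ℝ ∞ (Wf q d) (Gz2 q d) := by
    have h1 : ContDiffOn ℝ ∞ (d.u q) (Gz2 q d) := (u_smO h T).mono fun w hw => hw.1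
    have h2 : ContDiff ℝ ∞ (prS q.e₁) := h.ok.Ss
    exact (h.top.sm.comp_contDiffOn h1).add ((Real.contDiff_exp.comp_contDiffOn h1).mul
      ((h2.comp H644.contDiff_qq).contDiffOn))
  have sW : ContDiffOn ℝ ∞ (d.W q) (Gz2 q d) := sF.congr eW
  set B : ℝ := ∑ j ∈ Finset.range 5, (Nk j (d.W q) z + Nk j (Wf q d) z) with hB
  have hBj : ∀ j, j ≤ 4 → Nk j (d.W q) z + Nk j (Wf q d) z ≤ B := by
    intro j hj
    rw [hB]
    exact Finset.single_le_sum (f := fun j => Nk j (d.W q) z + Nk j (Wf q d) z)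
      (fun i _ => add_nonneg (norm_nonneg _) (norm_nonneg _)) (Finset.mem_range.2 (by omega))
  obtain ⟨C, hC, hst⟩ := sta_flat n B
  have hJ : Jt 4 B 0 (d.W q) (Wf q d) z := by
    intro j _ hj
    have h1 := hBj j hj
    have h2 : 0 ≤ Nk j (d.W q) z := norm_nonneg _
    have h3 : 0 ≤ Nk j (Wf q d) z := norm_nonneg _
    refine ⟨by linarith, by linarith, ?_⟩
    rw [Nk_zero_of hU (W := fun z => d.W q z - Wf q d z) (fun w hw => by rw [eW w hw, sub_self])
      hz]
  have hNk : Nk 1 (0 : VV n → ℝ) z ≤ 0 :=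
    (Nk_zero_of isOpen_univ (fun _ _ => rfl) (mem_univ z) 1).le
  have main := hst O O (Gz2 q d) d.s₁ d.s₂ 0 0 (d.W q) (Wf q d) 0 hO hO hU n1 n2
    contDiffOn_const contDiffOn_const sW sF le_rfl zero_le_one z hz hz.2.1 hz.2.2.1 hNk hNk hJ f g
  rw [zero_mul, mul_zero] at main
  have := abs_nonpos_iff.1 main
  exact sub_eq_zero.1 this

/-- The constant of the first pass. -/
def CJ (n : ℕ) (q : Cst) : ℝ := if h : 1 ≤ n then (first h q).choose else 0

/-- **The star density of the true data against the flat model with the true level.** -/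
theorem jetSta (n : ℕ) (hn : 1 ≤ n) {ep : ℝ} (hep : 0 < ep) : EvC fun q => ∀ d : Pk n,
    PkOk q d → ∀ z ∈ OI q d, ∀ f g : VV n → ℝ,
      |sta d.sx d.sy 0 0 (d.W q) f g z -
        sta (H644.Ch.fx n) (H644.Ch.fy n) 0 0 (Wf q d) f g z| ≤
      ep * (nX d.sx (d.W q) f z + nX d.sy (d.W q) g z + f z ^ 2 + g z ^ 2) := by
  have h1 : EvC fun q => CJ n q.b_ε * q.ε ≤ min 1 ep := by
    refine EvC.at_ε (fun q t => CJ n q * t ≤ min 1 ep) fun q => ?_
    have hm : 0 < min 1 ep := lt_min one_pos hep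
    have hC : 0 ≤ CJ n q := by
      unfold CJ
      rw [dif_pos hn]
      exact (first hn q).choose_spec.1
    filter_upwards [sml_pos, sml_le (a := min 1 ep / (CJ n q + 1)) (by positivity)] with t a b
    rw [le_div_iff₀ (by positivity)] at b
    nlinarith
  refine ((H238.C.loc n).and h1).mono ?_
  rintro q ⟨⟨T, E, hL⟩, hε⟩ d h z hz f g
  have L := hL d h z hz
  have hQ : 0 ≤ nX d.sx (d.W q) f z + nX d.sy (d.W q) g z + f z ^ 2 + g z ^ 2 := by
    have h5 : 0 ≤ nX d.sx (d.W q) f z := Finset.sum_nonneg fun _ _ => sq_nonneg _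
    have h6 : 0 ≤ nX d.sy (d.W q) g z := Finset.sum_nonneg fun _ _ => sq_nonneg _
    positivity
  rcases L.pass with hp | hp
  · have hC : CJ n q.b_ε = (first hn q.b_ε).choose := dif_pos hn
    rw [hC] at hε
    have hs := (first hn q.b_ε).choose_spec.2 q rfl T E (hε.trans (min_le_left _ _)) d h z
      ⟨hp.2, by
        have := L.nu.u0
        refine ⟨by linarith, by linarith [hp.1]⟩⟩
      (by
        have := hp.1
        have := T.rU
        have := uth_ge h T
        have := T.R1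
        linarith) f g
    exact hs.trans (mul_le_mul_of_nonneg_right (hε.trans (min_le_right _ _)) hQ)
  · rw [second hn h T E hp.2 f g, sub_self, abs_zero]
    exact mul_nonneg hep.le hQ

end Vale.Agent.P088.R2.H591.C
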