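import Vale.Agent.P088.R2.H973.W.PertT
import Vale.Agent.P088.R2.H475.INF.LevR
import Vale.Agent.P088.R2.H644.W.Rad

/-!
# P088, stage 3, zone C, region I: derivatives of `f(level of the midpoint) + κ |x - y|²`
-/

open Set Filter
open scoped ContDiff Topology

noncomputable section

namespace Vale.Agent.P088.R2.H591.C

open Vale.Agent.P088.LR Vale.Agent.P088.HY
open Vale.Agent.P088.R2.H464.Cu (mid dif Hv mid_apply contDiff_mid)
open Vale.Agent.P088.R2.H475 (wR)
open Vale.Agent.P088.R2.H644 (qq qv)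
open Vale.Agent.P088.R2.H973.W (DD)

variable {n : ℕ} {σ R c : ℝ}

/-- The quadratic level at the midpoint. -/
def ql (n : ℕ) (σ R c : ℝ) (z : VV n) : ℝ :=
  c + R / (2 * σ) * (HY.sq (wR n σ R (mid z)) - 1)

/-- The derivative of `ql` in the direction `v`. -/
def Aq (n : ℕ) (σ R : ℝ) (v z : VV n) : ℝ :=
  1 / 2 * ∑ i, wR n σ R (mid z) i * (v.1 i + v.2 i)

/-- The second derivative of `ql`. -/
def cq (σ R : ℝ) (v v' : VV n) : ℝ := σ / (4 * R) * ∑ i, (v.1 i + v.2 i) * (v'.1 i + v'.2 i)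

theorem hv_lin (i : Fin n) (v z : VV n) : Hv v (fun z => z.1 i + z.2 i) (v.1 i + v.2 i) z := by
  have h1 : HasFDerivAt (fun z : VV n => z.1 i + z.2 i)
      (((ContinuousLinearMap.proj (R := ℝ) i).comp (ContinuousLinearMap.fst ℝ (V n) (V n))) +
        ((ContinuousLinearMap.proj (R := ℝ) i).comp (ContinuousLinearMap.snd ℝ (V n) (V n)))) z :=
    ContinuousLinearMap.hasFDerivAt (((ContinuousLinearMap.proj (R := ℝ) i).comp
      (ContinuousLinearMap.fst ℝ (V n) (V n))) +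
        ((ContinuousLinearMap.proj (R := ℝ) i).comp (ContinuousLinearMap.snd ℝ (V n) (V n))))
  exact ⟨h1.differentiableAt, by rw [h1.fderiv]; rfl⟩

theorem hv_sum {ι : Type*} (s : Finset ι) {v z : VV n} {f : ι → VV n → ℝ} {a : ι → ℝ}
    (h : ∀ i ∈ s, Hv v (f i) (a i) z) : Hv v (fun z => ∑ i ∈ s, f i z) (∑ i ∈ s, a i) z := by
  refine ⟨DifferentiableAt.fun_sum fun i hi => (h i hi).d, ?_⟩
  rw [fderiv_fun_sum fun i hi => (h i hi).d]
  simp only [_root_.sum_apply]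
  exact Finset.sum_congr rfl fun i hi => (h i hi).e

theorem hv_congr {v z : VV n} {f g : VV n → ℝ} {a b : ℝ} (h : Hv v f a z) (hf : ∀ z, g z = f z)
    (ha : b = a) : Hv v g b z := by
  have : g = f := funext hf
  rw [this, ha]; exact h

theorem wR_mid (i : Fin n) (z : VV n) :
    wR n σ R (mid z) i = wR n σ R 0 i + σ / (2 * R) * (z.1 i + z.2 i) := by
  unfold wR H475.wv
  simp only [mid_apply, Pi.smul_apply, smul_eq_mul, Pi.zero_apply]
  ring

theorem hv_w (i : Fin n) (v z : VV n) :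
    Hv v (fun z => wR n σ R (mid z) i) (σ / (2 * R) * (v.1 i + v.2 i)) z := by
  refine hv_congr ((Hv.const (wR n σ R 0 i)).add ((hv_lin i v z).cmul (σ / (2 * R))))
    (fun z => wR_mid i z) ?_
  ring

theorem hv_ql (h0 : 0 < σ) (hR : 0 < R) (v z : VV n) : Hv v (ql n σ R c) (Aq n σ R v z) z := by
  have h1 : Hv v (fun z => HY.sq (wR n σ R (mid z)))
      (∑ i, (σ / (2 * R) * (v.1 i + v.2 i) * wR n σ R (mid z) i +
        wR n σ R (mid z) i * (σ / (2 * R) * (v.1 i + v.2 i)))) z := by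
    refine hv_congr (hv_sum Finset.univ fun i _ => (hv_w i v z).mul (hv_w i v z)) ?_ rfl
    intro z
    unfold HY.sq
    exact Finset.sum_congr rfl fun i _ => by ring
  refine hv_congr ((Hv.const c).add (((h1.add (Hv.const (-1))).cmul (R / (2 * σ))))) ?_ ?_
  · intro z; unfold ql; ring
  · unfold Aq
    rw [zero_add, add_zero, Finset.mul_sum, Finset.mul_sum]
    refine Finset.sum_congr rfl fun i _ => ?_
    field_simp
    ring

theorem hv_Aq (v v' z : VV n) : Hv v' (Aq n σ R v) (cq σ R v' v) z := by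
  have h1 : Hv v' (fun z => ∑ i, wR n σ R (mid z) i * (v.1 i + v.2 i))
      (∑ i, (σ / (2 * R) * (v'.1 i + v'.2 i) * (v.1 i + v.2 i) + wR n σ R (mid z) i * 0)) z :=
    hv_sum Finset.univ fun i _ => (hv_w i v' z).mul (Hv.const (v.1 i + v.2 i))
  refine hv_congr (h1.cmul (1 / 2)) (fun z => rfl) ?_
  unfold cq
  rw [Finset.mul_sum, Finset.mul_sum]
  refine Finset.sum_congr rfl fun i _ => ?_
  ring

theorem hv_comp {f : ℝ → ℝ} (hf : Differentiable ℝ f) {v z : VV n} {g : VV n → ℝ} {a : ℝ}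
    (hg : Hv v g a z) : Hv v (fun z => f (g z)) (deriv f (g z) * a) z := by
  have h := (hf (g z)).hasDerivAt.comp_hasFDerivAt z hg.d.hasFDerivAt
  refine ⟨h.differentiableAt, ?_⟩
  have h2 : fderiv ℝ (fun z => f (g z)) z = deriv f (g z) • fderiv ℝ g z := h.fderiv
  rw [h2, _root_.smul_apply, hg.e, smul_eq_mul]

/-- `f^(j)` at the level. -/
def Fj (n : ℕ) (σ R c : ℝ) (f : ℝ → ℝ) (j : ℕ) (z : VV n) : ℝ :=
  iteratedDeriv j f (ql n σ R c z)

theorem hv_Fj (h0 : 0 < σ) (hR : 0 < R) {f : ℝ → ℝ} (hf : ContDiff ℝ ∞ f) (j : ℕ) (v z : VV n) :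
    Hv v (Fj n σ R c f j) (Fj n σ R c f (j + 1) z * Aq n σ R v z) z := by
  have h1 : Differentiable ℝ (iteratedDeriv j f) :=
    hf.differentiable_iteratedDeriv j (by exact_mod_cast WithTop.coe_lt_top _)
  have h2 := hv_comp h1 (hv_ql (c := c) h0 hR v z)
  refine hv_congr h2 (fun z => rfl) ?_
  unfold Fj
  rw [iteratedDeriv_succ]

section DDs

variable {f : ℝ → ℝ}

theorem DD1 (h0 : 0 < σ) (hR : 0 < R) (hf : ContDiff ℝ ∞ f) (a : VV n) :
    DD [a] (fun z => f (ql n σ R c z)) = fun z => Fj n σ R c f 1 z * Aq n σ R a z := by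
  funext z
  have h := (hv_Fj (c := c) h0 hR hf 0 a z).e
  have e : Fj n σ R c f 0 = fun z => f (ql n σ R c z) := by
    funext z; unfold Fj; rw [iteratedDeriv_zero]
  rw [e] at h
  exact h

theorem DD2 (h0 : 0 < σ) (hR : 0 < R) (hf : ContDiff ℝ ∞ f) (b a : VV n) :
    DD [b, a] (fun z => f (ql n σ R c z)) = fun z =>
      Fj n σ R c f 2 z * Aq n σ R b z * Aq n σ R a z + Fj n σ R c f 1 z * cq σ R b a := by
  funext z
  have e : DD [b, a] (fun z => f (ql n σ R c z)) z =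
      fderiv ℝ (DD [a] fun z => f (ql n σ R c z)) z b := rfl
  rw [e, DD1 h0 hR hf]
  exact ((hv_Fj (c := c) h0 hR hf 1 b z).mul (hv_Aq a b z)).e

theorem DD3 (h0 : 0 < σ) (hR : 0 < R) (hf : ContDiff ℝ ∞ f) (d b a : VV n) :
    DD [d, b, a] (fun z => f (ql n σ R c z)) = fun z =>
      Fj n σ R c f 3 z * Aq n σ R d z * Aq n σ R b z * Aq n σ R a z +
      Fj n σ R c f 2 z * (cq σ R d b * Aq n σ R a z + Aq n σ R b z * cq σ R d a +
        Aq n σ R d z * cq σ R b a) := by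
  funext z
  have e : DD [d, b, a] (fun z => f (ql n σ R c z)) z =
      fderiv ℝ (DD [b, a] fun z => f (ql n σ R c z)) z d := rfl
  rw [e, DD2 h0 hR hf]
  have h := ((((hv_Fj (c := c) h0 hR hf 2 d z).mul (hv_Aq (σ := σ) (R := R) b d z)).mul
    (hv_Aq (σ := σ) (R := R) a d z)).add
    ((hv_Fj (c := c) h0 hR hf 1 d z).mul (Hv.const (cq σ R b a)))).e
  rw [h]
  ring

theorem DD4 (h0 : 0 < σ) (hR : 0 < R) (hf : ContDiff ℝ ∞ f) (g d b a z : VV n) :
    DD [g, d, b, a] (fun z => f (ql n σ R c z)) z =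
      Fj n σ R c f 4 z * Aq n σ R g z * Aq n σ R d z * Aq n σ R b z * Aq n σ R a z +
      Fj n σ R c f 3 z * (cq σ R g d * Aq n σ R b z * Aq n σ R a z +
        Aq n σ R d z * cq σ R g b * Aq n σ R a z + Aq n σ R d z * Aq n σ R b z * cq σ R g a +
        Aq n σ R g z * (cq σ R d b * Aq n σ R a z + Aq n σ R b z * cq σ R d a +
          Aq n σ R d z * cq σ R b a)) +
      Fj n σ R c f 2 z * (cq σ R d b * cq σ R g a + cq σ R g b * cq σ R d a +
        cq σ R g d * cq σ R b a) := by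
  have e : DD [g, d, b, a] (fun z => f (ql n σ R c z)) z =
      fderiv ℝ (DD [d, b, a] fun z => f (ql n σ R c z)) z g := rfl
  rw [e, DD3 h0 hR hf]
  have k1 := ((((hv_Fj (c := c) h0 hR hf 3 g z).mul (hv_Aq (σ := σ) (R := R) d g z)).mul
    (hv_Aq (σ := σ) (R := R) b g z)).mul (hv_Aq (σ := σ) (R := R) a g z))
  have k2 := (((Hv.const (w := g) (z := z) (cq σ R d b)).mul (hv_Aq (σ := σ) (R := R) a g z)).add
    ((hv_Aq (σ := σ) (R := R) b g z).mul (Hv.const (cq σ R d a)))).add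
      ((hv_Aq (σ := σ) (R := R) d g z).mul (Hv.const (cq σ R b a)))
  have h := (k1.add ((hv_Fj (c := c) h0 hR hf 2 g z).mul k2)).e
  rw [h]
  ring

end DDs

/-! ## `|x - y|²` -/

/-- `2 ⟨v₁ - v₂, v'₁ - v'₂⟩`. -/
def dq2 (v v' : VV n) : ℝ := 2 * ∑ i, (v.1 i - v.2 i) * (v'.1 i - v'.2 i)

theorem hv_dif (i : Fin n) (v z : VV n) : Hv v (fun z => z.1 i - z.2 i) (v.1 i - v.2 i) z := by
  have h1 : HasFDerivAt (fun z : VV n => z.1 i - z.2 i)
      (((ContinuousLinearMap.proj (R := ℝ) i).comp (ContinuousLinearMap.fst ℝ (V n) (V n))) -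
        ((ContinuousLinearMap.proj (R := ℝ) i).comp (ContinuousLinearMap.snd ℝ (V n) (V n)))) z :=
    ContinuousLinearMap.hasFDerivAt (((ContinuousLinearMap.proj (R := ℝ) i).comp
      (ContinuousLinearMap.fst ℝ (V n) (V n))) -
        ((ContinuousLinearMap.proj (R := ℝ) i).comp (ContinuousLinearMap.snd ℝ (V n) (V n))))
  exact ⟨h1.differentiableAt, by rw [h1.fderiv]; rfl⟩

theorem Q1 (k : ℝ) (a : VV n) :
    DD [a] (fun z => k * qq z) = fun z => k * (2 * ∑ i, (z.1 i - z.2 i) * (a.1 i - a.2 i)) := by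
  funext z
  have h1 : Hv a (fun z => ∑ i, (z.1 i - z.2 i) * (z.1 i - z.2 i))
      (∑ i, ((a.1 i - a.2 i) * (z.1 i - z.2 i) + (z.1 i - z.2 i) * (a.1 i - a.2 i))) z :=
    hv_sum Finset.univ fun i _ => (hv_dif i a z).mul (hv_dif i a z)
  have h2 := (hv_congr (h1.cmul k) (g := fun z => k * qq z) (fun z => by
    rw [H644.qq_eq]
    unfold qv
    refine congrArg _ (Finset.sum_congr rfl fun i _ => ?_)
    ring) rfl).e
  refine h2.trans ?_
  refine congrArg _ ?_
  rw [Finset.mul_sum]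
  refine Finset.sum_congr rfl fun i _ => ?_
  ring

theorem Q2 (k : ℝ) (b a : VV n) : DD [b, a] (fun z => k * qq z) = fun _ => k * dq2 b a := by
  funext z
  have e : DD [b, a] (fun z => k * qq z) z = fderiv ℝ (DD [a] fun z => k * qq z) z b := rfl
  rw [e, Q1]
  have h1 : Hv b (fun z => ∑ i, (z.1 i - z.2 i) * (a.1 i - a.2 i))
      (∑ i, ((b.1 i - b.2 i) * (a.1 i - a.2 i) + (z.1 i - z.2 i) * 0)) z :=
    hv_sum Finset.univ fun i _ => (hv_dif i b z).mul (Hv.const (a.1 i - a.2 i))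
  have h2 := ((h1.cmul 2).cmul k).e
  refine h2.trans ?_
  unfold dq2
  refine congrArg _ (congrArg _ (Finset.sum_congr rfl fun i _ => ?_))
  ring

theorem Q3 (k : ℝ) (d b a : VV n) : DD [d, b, a] (fun z => k * qq z) = fun _ => 0 := by
  funext z
  have e : DD [d, b, a] (fun z => k * qq z) z = fderiv ℝ (DD [b, a] fun z => k * qq z) z d := rfl
  rw [e, Q2]
  simp

theorem Q4 (k : ℝ) (g d b a z : VV n) : DD [g, d, b, a] (fun z => k * qq z) z = 0 := by
  have e : DD [g, d, b, a] (fun z => k * qq z) z =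
      fderiv ℝ (DD [d, b, a] fun z => k * qq z) z g := rfl
  rw [e, Q3]
  simp

end Vale.Agent.P088.R2.H591.C
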