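import Vale.Agent.P088.R2.H222.P2

/-!
# P088, stage 3, zone C, region I: the weight with `r²` and with `|x - y|²`
-/

open Set Filter
open scoped ContDiff Topology

noncomputable section

namespace Vale.Agent.P088.R2.H591.C

open Vale.Agent.P088.LR Vale.Agent.P088.HY
open Vale.Agent.P088.R2.H31.EP
open Vale.Agent.P088.R2.H464.Cu (mid dif)
open Vale.Agent.P088.R2.H222 (Bk Sk Ck cB cC c1 c2 M_le_cB M_le_cC exists_Sk)

variable {n : ℕ}

/-- The weight with a general `u` and a general square. -/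
def wS (Φ S : ℝ → ℝ) (u r : VV n → ℝ) (z : VV n) : ℝ := Φ (u z) + Real.exp (u z) * S (r z)

theorem wf_close {Φ S : ℝ → ℝ} (hΦ' : ContDiff ℝ ∞ Φ) (hS' : ContDiff ℝ ∞ S) {r0 : ℝ}
    (h0 : 0 ≤ r0) (k : ℕ) (a b B : ℝ) :
    ∃ C : ℝ, 0 ≤ C ∧ ∀ ε : ℝ, 0 ≤ ε → ε ≤ 1 →
      ∀ (O : Set (V n)) (U : Set (VV n)) (u : VV n → ℝ) (g : MF n), Ck k O ε g → IsOpen U →
        Bk k U B u → (∀ z ∈ U, u z ∈ Icc a b) → (∀ z ∈ U, mid z ∈ O) →
        (∀ z ∈ U, H222.qq z ≤ r0 ^ 2) →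
        Bk k U (C * ε) (fun z => wS Φ S u (r2 g) z - wS Φ S u H222.qq z) ∧
          Bk k U C (wS Φ S u (r2 g)) ∧ Bk k U C (wS Φ S u H222.qq) := by
  set K := (1 + n) * r0 ^ 2 with hK
  have hK0 : 0 ≤ K := by positivity
  obtain ⟨M1, hM1, hΦ⟩ := exists_Sk hΦ' (isCompact_Icc (a := a) (b := b)) k
  obtain ⟨M2, hM2, hE⟩ := exists_Sk Real.contDiff_exp (isCompact_Icc (a := a) (b := b)) k
  obtain ⟨M3, hM3, hS⟩ := exists_Sk hS' (isCompact_Icc (a := -K) (b := K)) (k + 1)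
  set D := c2 n k r0 + c1 n k r0 with hD
  have h10 := H222.c1_nonneg (n := n) (k := k) h0
  have h20 := H222.c2_nonneg (n := n) (k := k) h0
  have hD0 : 0 ≤ D := add_nonneg h20 h10
  have hcB : ∀ {k M B}, 0 ≤ M → 0 ≤ cB k M B := fun h => h.trans (M_le_cB _ _ _)
  have hcC : ∀ {k M B}, 0 ≤ M → 0 ≤ cC k M B := fun h => h.trans (M_le_cC _ _ _)
  set C1 := 2 ^ k * cB k M2 B * (cC k M3 D * c1 n k r0) with hC1
  set C2 := cB k M1 B + 2 ^ k * cB k M2 B * cB k M3 D with hC2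
  have hC10 : 0 ≤ C1 := by
    have := hcB (k := k) (B := B) hM2
    have := hcC (k := k) (B := D) hM3
    positivity
  have hC20 : 0 ≤ C2 := by
    have := hcB (k := k) (B := B) hM2
    have := hcB (k := k) (B := B) hM1
    have := hcB (k := k) (B := D) hM3
    positivity
  refine ⟨C1 + C2, add_nonneg hC10 hC20, ?_⟩
  intro ε he0 he1 O U u g hg hU bu hI hmid hqr
  have bq : Bk k U D (H222.qq (n := n)) := (H222.bk_qq hU h0 hqr).le (by linarith)
  have bd : Bk k U (c1 n k r0 * ε) (fun z => r2 g z - H222.qq z) :=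
    H222.bk_r2_sub hU h0 hqr hmid hg
  have br : Bk k U D (r2 g) := by
    refine ((H222.bk_qq (k := k) hU h0 hqr).add bd).congr (g := r2 g) (fun z _ => by ring)
      |>.le ?_
    have : c1 n k r0 * ε ≤ c1 n k r0 := mul_le_of_le_one_right h10 he1
    linarith
  have hn : (0 : ℝ) ≤ n := Nat.cast_nonneg n
  have iq : ∀ z ∈ U, H222.qq z ∈ Icc (-K) K := by
    intro z hz
    have h1 := hqr z hz
    have h2 := H222.qq_nonneg z
    have h3 := sq_nonneg r0
    refine ⟨by linarith, h1.trans ?_⟩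
    rw [hK]
    nlinarith
  have ir' : ∀ z ∈ U, |r2 g z| ≤ (1 + n * ε) * r0 ^ 2 := by
    intro z hz
    have h1 := H222.abs_r2_sub hmid hg he0 hz
    have h2 := hqr z hz
    have h3 := H222.qq_nonneg z
    have h4 := abs_le.1 h1
    have h5 : n * ε * H222.qq z ≤ n * ε * r0 ^ 2 :=
      mul_le_mul_of_nonneg_left h2 (mul_nonneg hn he0)
    rw [abs_le]
    constructor <;> nlinarith [sq_nonneg r0]
  have ir : ∀ z ∈ U, r2 g z ∈ Icc (-K) K := by
    intro z hz
    have h1 := ir' z hz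
    have h2 : (1 + n * ε) * r0 ^ 2 ≤ K := by
      rw [hK]
      have : n * ε ≤ n := mul_le_of_le_one_right hn he1
      have := sq_nonneg r0
      gcongr
    exact abs_le.1 (h1.trans h2)
  have b1 : Bk k U (cB k M1 B) (fun z : VV n => Φ (u z)) := Bk.comp hΦ bu hI
  have b2 : Bk k U (cB k M2 B) (fun z : VV n => Real.exp (u z)) := Bk.comp hE bu hI
  have b3 : Bk k U (cB k M3 D) (fun z => S (r2 g z)) := Bk.comp (hS.mono (Nat.le_succ k)) br ir
  have b4 : Bk k U (cB k M3 D) (fun z : VV n => S (H222.qq z)) :=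
    Bk.comp (hS.mono (Nat.le_succ k)) bq iq
  have b5 : Bk k U (cC k M3 D * (c1 n k r0 * ε)) (fun z => S (r2 g z) - S (H222.qq z)) :=
    Bk.comp_sub (convex_Icc _ _) hS br bq bd ir iq hM3 (mul_nonneg h10 he0)
  refine ⟨?_, ?_, ?_⟩
  · refine ((b2.mul b5).congr (g := fun z => wS Φ S u (r2 g) z - wS Φ S u H222.qq z)
      fun z hz => ?_).le ?_
    · unfold wS; ring
    · calc 2 ^ k * cB k M2 B * (cC k M3 D * (c1 n k r0 * ε)) = C1 * ε := by rw [hC1]; ring
        _ ≤ (C1 + C2) * ε := mul_le_mul_of_nonneg_right (by linarith) he0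
  · refine ((b1.add (b2.mul b3)).congr (g := wS Φ S u (r2 g)) fun z hz => rfl).le ?_
    linarith
  · refine ((b1.add (b2.mul b4)).congr (g := wS Φ S u H222.qq) fun z hz => rfl).le ?_
    linarith

end Vale.Agent.P088.R2.H591.C
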