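import Vale.Agent.P088.R2.H354.E.PertXY
import Vale.Agent.P088.R2.H475.INF.LevD
import Vale.Agent.P088.R2.H591.C.JetU
import Vale.Agent.P088.R2.H591.C.JS1

/-!
# P088, stage 3, zone C, region I: the level `u` is bounded in `C⁴` on the first pass
-/

open Set Filter
open scoped ContDiff Topology

noncomputable section

namespace Vale.Agent.P088.R2.H591.C

open Vale.Agent.P088.LR Vale.Agent.P088.HY
open Vale.Agent.P088.R2.H31.EP
open Vale.Agent.P088.R2.H464.Cu (mid dif midL midL_apply)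
open Vale.Agent.P088.R2.H475 (wR levG levG_bound levG_smooth)
open Vale.Agent.P088.R2.H644 (qq)
open Vale.Agent.P088.R2.H238.C
open Vale.Agent.P088.R2.H222 (Bk Sk Ck cB cC M_le_cB M_le_cC exists_Sk norm_comp_right
  norm_midL)
open Vale.Agent.P088.R2.H205.CP (OI nuL)

variable {n : ℕ} {q : Cst} {d : Pk n}

/-- The points of the first pass with bounded level. -/
def Ga (q : Cst) (d : Pk n) : Set (VV n) :=
  Gz1 q d ∩ {z | -1 < d.u q z ∧ d.u q z < U₁ q + 1}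

theorem um_sm (h : PkOk q d) : ContDiff ℝ ∞ (um n q.σ q.R (d.l₀ q) (d.μc q)) :=
  um_smooth (Pk.μc_smooth d q h.ph.isμ.sm)

theorem u_smO (h : PkOk q d) (T : Th q) : ContDiffOn ℝ ∞ (d.u q) (Gz q d) :=
  (um_sm h).contDiffOn.congr fun _ hz => u_um h T hz

theorem isOpen_Ga (h : PkOk q d) (T : Th q) (E : Te n q) : IsOpen (Ga q d) := by
  have h1 : IsOpen (Gz q d) := isOpen_Gz h T E
  have h2 : ContinuousOn (d.u q) (Gz q d) := (u_smO h T).continuousOn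
  have h3 := h2.isOpen_inter_preimage h1 (isOpen_Ioo (a := (-1 : ℝ)) (b := U₁ q + 1))
  have h4 : Ga q d = Gz1 q d ∩ (Gz q d ∩ d.u q ⁻¹' Ioo (-1) (U₁ q + 1)) := by
    ext z
    constructor
    · rintro ⟨a, b⟩
      exact ⟨a, a.1, b⟩
    · rintro ⟨a, _, b⟩
      exact ⟨a, b⟩
  rw [h4]
  exact (isOpen_Gz1 h T E).inter h3

theorem qq_Gz (h : PkOk q d) (T : Th q) (E : Te n q) {z : VV n} (hz : z ∈ Gz q d) :
    H222.qq z ≤ 2 ^ 2 := by
  have h1 := sqr_le h T E hz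
  have h2 : H222.qq z = HY.sq (z.1 - z.2) := rfl
  rw [h2]; linarith

theorem l_Ga (h : PkOk q d) (T : Th q) (E : Te n q) {z : VV n} (hz : z ∈ Ga q d) :
    |d.l (mid z)| ≤ |U₁ q| + 3 := by
  have hu := u_Gz' h T hz.1.1
  have h1 := abs_le.1 (muc_le h (d.l (mid z)))
  have h2 := sqr_le h T E hz.1.1
  have h3 : 0 ≤ HY.sq (z.1 - z.2) := H475.sq0 _
  have hR := T.R1
  have hσ := T.σ0
  have hσ1 := T.σ1
  have h4 : q.σ / (4 * q.R) ≤ 1 / 8 := by
    rw [div_le_iff₀ (by linarith)]; linarith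
  have h5 : 0 ≤ q.σ / (4 * q.R) := by
    have := T.R0
    positivity
  have h6 : q.σ / (4 * q.R) * HY.sq (z.1 - z.2) ≤ 1 / 8 * (102 / 100) :=
    mul_le_mul h4 h2 h3 (by norm_num)
  have h7 := mul_nonneg h5 h3
  have h8 := hz.2.1
  have h9 := hz.2.2
  have h10 := abs_nonneg (U₁ q)
  have h11 := le_abs_self (U₁ q)
  rw [abs_le]
  constructor <;> linarith

theorem fd_l_le (h : PkOk q d) (T : Th q) {x : V n} (hx : x ∈ Gp q d) :
    ‖fderiv ℝ d.l x‖ ≤ 2 * n := by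
  refine ContinuousLinearMap.opNorm_le_bound _ (by positivity) fun v => ?_
  rw [l_fd h T (Gp_th h T hx)]
  have h1 := (Gp_sq h T hx).2
  have h2 := T.σ1
  have h3 : ∀ i, |ww n q x i| ≤ 2 := fun i => by
    have h4 : ww n q x i ^ 2 ≤ HY.sq (ww n q x) :=
      Finset.single_le_sum (f := fun i => ww n q x i ^ 2) (fun j _ => sq_nonneg _)
        (Finset.mem_univ i)
    exact abs_le_of_sq_le_sq (by linarith) (by norm_num)
  calc ‖∑ i, ww n q x i * v i‖ ≤ ∑ i, ‖ww n q x i * v i‖ := norm_sum_le _ _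
    _ ≤ ∑ _i : Fin n, 2 * ‖v‖ := by
        refine Finset.sum_le_sum fun i _ => ?_
        rw [norm_mul, Real.norm_eq_abs]
        exact mul_le_mul (h3 i) (norm_le_pi_norm v i) (norm_nonneg _) (by norm_num)
    _ = 2 * n * ‖v‖ := by
        rw [Finset.sum_const, Finset.card_univ, Fintype.card_fin, nsmul_eq_mul]; ring

/-- **`u` is bounded in `C⁴`.** -/
theorem bk_u (hn : 1 ≤ n) (q0 : Cst) (h0 : 0 < q0.σ) (h1 : q0.σ ≤ 1 / 5000)
    (hμ : ContDiff ℝ ∞ q0.μ₁) : ∃ B : ℝ, 0 ≤ B ∧ ∀ q : Cst, q.b_ε = q0 → Th q → Te n q →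
    ∀ d : Pk n, PkOk q d → Bk 4 (Ga q d) B (d.u q) := by
  obtain ⟨C2, a2, b2⟩ := levG_bound (n := n) hn h0 h1 0
  obtain ⟨C3, a3, b3⟩ := levG_bound (n := n) hn h0 h1 1
  obtain ⟨C4, a4, b4⟩ := levG_bound (n := n) hn h0 h1 2
  set a := |U₁ q0| + 3 with ha
  have ha0 : 0 ≤ a := by positivity
  set Bl := a + 2 * n + C2 + C3 + C4 with hBl
  have hn0 : (0 : ℝ) ≤ n := Nat.cast_nonneg n
  have hBl0 : 0 ≤ Bl := by positivity
  obtain ⟨M, hM, hS⟩ := exists_Sk hμ (isCompact_Icc (a := -a) (b := a)) 4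
  have hcB : 0 ≤ cB 4 M Bl := hM.trans (M_le_cB _ _ _)
  have hc2 := H222.c2_nonneg (n := n) (k := 4) (r0 := 2) (by norm_num)
  refine ⟨2 ^ 4 * 2 * Bl + 2 ^ 4 * 2 * cB 4 M Bl + 2 ^ 4 * 1 * H222.c2 n 4 2, by positivity, ?_⟩
  rintro q rfl T E d h
  have hU := isOpen_Ga h T E
  have hR := T.R1
  have hR0 := T.R0
  have hRi : q.R⁻¹ ≤ 1 := inv_le_one_of_one_le₀ (by linarith)
  have hRi0 : 0 ≤ q.R⁻¹ := inv_nonneg.2 hR0.le
  have hg : ∀ z ∈ Ga q d, |d.l (mid z)| ≤ a := fun z hz => l_Ga h T E hz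
  have hlev : ∀ {C : ℝ} {k : ℕ}, 0 < C → (∀ R kap Gs : ℝ, 0 < R → ∀ x : V n,
      ‖iteratedFDeriv ℝ (k + 2) (levG n q.b_ε.σ R kap Gs) x‖ ≤ C * R⁻¹ ^ (k + 1)) →
      ∀ x, ‖iteratedFDeriv ℝ (k + 2) d.l x‖ ≤ C := by
    intro C k hC hb x
    rw [h.lev.lit]
    refine (hb q.R d.kap d.Gs hR0 x).trans ?_
    exact mul_le_of_le_one_right hC.le (pow_le_one₀ hRi0 hRi)
  have bl : Bk 4 (Ga q d) Bl (fun z => d.l (mid z)) := by
    refine ⟨hU, ((l_sm h).comp H464.Cu.contDiff_mid).contDiffOn, fun j hj z hz => ?_⟩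
    rcases Nat.eq_zero_or_pos j with rfl | hj'
    · rw [norm_iteratedFDeriv_zero, Real.norm_eq_abs]
      refine (hg z hz).trans ?_
      rw [hBl]
      linarith
    · have e1 := norm_comp_right (midL n) norm_midL isOpen_univ (l_sm h).contDiffOn
        (x := z) (mem_univ _) j
      refine e1.trans ?_
      rw [midL_apply]
      have hj4 : j = 1 ∨ j = 2 ∨ j = 3 ∨ j = 4 := by omega
      rcases hj4 with rfl | rfl | rfl | rfl
      · rw [norm_iteratedFDeriv_one]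
        refine (fd_l_le h T hz.1.1.2.2.1).trans ?_
        rw [hBl]; linarith
      · refine (hlev a2 b2 (mid z)).trans ?_
        rw [hBl]; linarith
      · refine (hlev a3 b3 (mid z)).trans ?_
        rw [hBl]; linarith
      · refine (hlev a4 b4 (mid z)).trans ?_
        rw [hBl]; linarith
  have bm : Bk 4 (Ga q d) (cB 4 M Bl) (fun z => q.b_ε.μ₁ (d.l (mid z))) :=
    Bk.comp hS bl fun z hz => abs_le.1 (hg z hz)
  have bq : Bk 4 (Ga q d) (H222.c2 n 4 2) H222.qq :=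
    H222.bk_qq hU (by norm_num) fun z hz => qq_Gz h T E hz.1.1
  have k2 : Bk 4 (Ga q d) 2 (fun _ : VV n => (2 : ℝ)) :=
    Bk.const hU (by rw [Real.norm_eq_abs]; norm_num)
  have k3 : Bk 4 (Ga q d) 1 (fun _ : VV n => q.σ / (4 * q.R)) := by
    refine Bk.const hU ?_
    have hσ := T.σ0
    rw [Real.norm_eq_abs, abs_of_nonneg (by positivity), div_le_iff₀ (by linarith)]
    linarith [T.σ1]
  refine (((k2.mul bl).add (k2.mul bm)).add (k3.mul bq)).congr fun z hz => ?_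
  rw [u_Gz' h T hz.1.1, mu_Gz1 T hz.1, h.eμ]
  rfl

end Vale.Agent.P088.R2.H591.C
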