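import Vale.Agent.P088.R2.H591.C.JS2

/-!
# P088, stage 3, zone C, region I: the star density against the flat model on the first pass
-/

open Set Filter
open scoped ContDiff Topology

noncomputable section

namespace Vale.Agent.P088.R2.H591.C

open Vale.Agent.P088.LR Vale.Agent.P088.HY
open Vale.Agent.P088.R2.H31.EP
open Vale.Agent.P088.R2.H464.Cu (mid dif midL midL_apply)
open Vale.Agent.P088.R2.H644 (qq)
open Vale.Agent.P088.R2.H238.C
open Vale.Agent.P088.R2.H222 (Bk Ck)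
open Vale.Agent.P088.R2.H973.W (Nk Jt N3 sta_flat)
open Vale.Agent.P088.R2.H551.E (sta nX)
open Vale.Agent.P088.R2.H657.W (cG cG_nn)
open Vale.Agent.P088.R2.H205.CP (OI nuL)

variable {n : ℕ} {q : Cst} {d : Pk n}

/-- The weight with the flat metric and the true level. -/
def Wf (q : Cst) (d : Pk n) (z : VV n) : ℝ :=
  d.Φ (d.u q z) + Real.exp (d.u q z) * prS q.e₁ (qq z)

theorem jt_of {U : Set (VV n)} {B e : ℝ} {W W' : VV n → ℝ} {z : VV n} (hz : z ∈ U)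
    (h1 : Bk 4 U e (fun z => W z - W' z)) (h2 : Bk 4 U B W) (h3 : Bk 4 U B W') :
    Jt 4 B e W W' z :=
  fun j _ hj => ⟨h2.b j hj z hz, h3.b j hj z hz, h1.b j hj z hz⟩

/-- The tensors are close to the identity. -/
theorem n3_s {s : MF n} {M σ kap Gs R e ε : ℝ} {s' : MF n} {K : ℕ}
    (h : Rg K ε M σ R kap Gs s s') (hK : 3 ≤ K) (hR : 1 ≤ R) (hε : 0 ≤ ε) (he : ε ≤ e) :
    N3 (univ : Set (V n)) e e e e s ∧ N3 (univ : Set (V n)) e e e e s' := by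
  have hRi : R⁻¹ ≤ 1 := inv_le_one_of_one_le₀ hR
  have hRi0 : 0 ≤ R⁻¹ := inv_nonneg.2 (by linarith)
  have key : ∀ m : ℕ, ε * R⁻¹ ^ m ≤ e := fun m =>
    (mul_le_of_le_one_right hε (pow_le_one₀ hRi0 hRi)).trans he
  exact ⟨H354.E.n3_of h.sm₁ fun i j m hm x => (h.cl₁ i j m (hm.trans hK) x).trans (key m),
    H354.E.n3_of h.sm₂ fun i j m hm x => (h.cl₂ i j m (hm.trans hK) x).trans (key m)⟩

/-- The metric is close to the identity. -/
theorem ck_g (h : PkOk q d) (T : Th q) (E : Te n q) :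
    Ck 4 (univ : Set (V n)) (cG n 12 * q.ε) (gi d.s₁) := by
  intro i j
  have hg := gi_TR h T E
  have hR := T.R1
  have hRi : q.R⁻¹ ≤ 1 := inv_le_one_of_one_le₀ (by linarith)
  have hRi0 : 0 ≤ q.R⁻¹ := inv_nonneg.2 (by linarith)
  refine ⟨isOpen_univ, ((hg.sm i j).sub contDiff_const).contDiffOn, fun m hm x _ => ?_⟩
  refine (hg.cl i j m (by omega) x).trans ?_
  exact mul_le_of_le_one_right (mul_nonneg (cG_nn n 12) E.ε0.le) (pow_le_one₀ hRi0 hRi)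

/-- **First pass.** -/
theorem first (hn : 1 ≤ n) (q0 : Cst) : ∃ C : ℝ, 0 ≤ C ∧ ∀ q : Cst, q.b_ε = q0 → Th q →
    Te n q → C * q.ε ≤ 1 → ∀ d : Pk n, PkOk q d → ∀ z ∈ Ga q d, d.u q z < d.uth q / 2 →
    ∀ f g : VV n → ℝ,
      |sta d.sx d.sy 0 0 (d.W q) f g z -
        sta (H644.Ch.fx n) (H644.Ch.fy n) 0 0 (Wf q d) f g z| ≤
      C * q.ε * (nX d.sx (d.W q) f z + nX d.sy (d.W q) g z + f z ^ 2 + g z ^ 2) := by
  by_cases hc : (0 < q0.σ ∧ q0.σ ≤ 1 / 5000) ∧ ContDiff ℝ ∞ q0.μ₁ ∧ ContDiff ℝ ∞ q0.Φ₁ ∧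
      ContDiff ℝ ∞ (prS q0.e₁)
  swap
  · refine ⟨0, le_rfl, ?_⟩
    rintro q rfl T E - d h
    refine absurd ⟨⟨T.σ0, T.σ1⟩, ?_, ?_, ?_⟩ hc
    · have := h.ph.isμ.sm
      rw [h.eμ] at this
      exact this
    · have := h.ph.isΦ.sm
      rw [h.eΦ] at this
      exact this
    · exact h.ok.Ss
  obtain ⟨⟨h0, h1⟩, hμ, hΦ, hS⟩ := hc
  obtain ⟨B, hB, hbk⟩ := bk_u (n := n) hn q0 h0 h1 hμ
  obtain ⟨C1, hC1, hwf⟩ := wf_close (n := n) hΦ hS (r0 := 2) (by norm_num) 4 (-1) (U₁ q0 + 1) B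
  obtain ⟨C2, hC2, hst⟩ := sta_flat n C1
  set G := cG n 12 with hG
  have hG0 : 0 ≤ G := cG_nn n 12
  set A := C1 * G + G + 1 with hA
  have hA1 : 1 ≤ A := by
    have : 0 ≤ C1 * G := mul_nonneg hC1 hG0
    linarith
  refine ⟨C2 * A + A, by positivity, ?_⟩
  rintro q rfl T E hε d h z hz hut f g
  have hε0 := E.ε0
  have hAε : A * q.ε ≤ 1 := by
    have : 0 ≤ C2 * A * q.ε := by positivity
    linarith [hε, show (C2 * A + A) * q.ε = C2 * A * q.ε + A * q.ε by ring]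
  have hGε : G * q.ε ≤ A * q.ε :=
    mul_le_mul_of_nonneg_right (by linarith [mul_nonneg hC1 hG0]) hε0.le
  have hGε0 : 0 ≤ G * q.ε := by positivity
  -- the open set
  set U : Set (VV n) := Ga q d ∩ {z | d.u q z < d.uth q / 2} with hUd
  have hU : IsOpen U := by
    have h2 : ContinuousOn (d.u q) (Ga q d) :=
      ((u_smO h T).continuousOn).mono fun z hz => hz.1.1
    exact h2.isOpen_inter_preimage (isOpen_Ga h T E) isOpen_Iio
  have hzU : z ∈ U := ⟨hz, hut⟩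
  have bu : Bk 4 U B (d.u q) :=
    (hbk q rfl T E d h).mono le_rfl le_rfl inter_subset_left hU
  obtain ⟨w1, w2, w3⟩ := hwf (G * q.ε) hGε0 (hGε.trans hAε) univ U (d.u q) (gi d.s₁)
    (ck_g h T E) hU bu (fun w hw => ⟨hw.1.2.1.le, hw.1.2.2.le⟩) (fun w _ => mem_univ _)
    (fun w hw => qq_Gz h T E hw.1.1.1)
  have eΦ : ∀ w ∈ U, d.Φ (d.u q w) = q.b_ε.Φ₁ (d.u q w) := fun w hw => by
    rw [h.top.eq _ (le_of_lt hw.2), h.eΦ]
    rfl
  have eW : ∀ w ∈ U, d.W q w = wS q.b_ε.Φ₁ (prS q.b_ε.e₁) (d.u q) (r2 (gi d.s₁)) w := by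
    intro w hw
    rw [W_Gz h T E hw.1.1.1]
    unfold wS
    rw [eΦ w hw]
    rfl
  have eF : ∀ w ∈ U, Wf q d w = wS q.b_ε.Φ₁ (prS q.b_ε.e₁) (d.u q) H222.qq w := by
    intro w hw
    unfold wS Wf
    rw [eΦ w hw]
    rfl
  have b2 : Bk 4 U C1 (d.W q) := w2.congr fun w hw => eW w hw
  have b3 : Bk 4 U C1 (Wf q d) := w3.congr fun w hw => eF w hw
  have b1 : Bk 4 U (A * q.ε) (fun z => d.W q z - Wf q d z) := by
    refine (w1.congr fun w hw => ?_).le ?_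
    · rw [eW w hw, eF w hw]
    · have : C1 * (G * q.ε) = C1 * G * q.ε := by ring
      rw [this]
      exact mul_le_mul_of_nonneg_right (by linarith) hε0.le
  have hR := T.R1
  have hεA : q.ε ≤ A * q.ε := by nlinarith
  obtain ⟨n1, n2⟩ := n3_s (e := A * q.ε) h.rg (by norm_num) (by linarith) hε0.le hεA
  have hNk : Nk 1 (0 : VV n → ℝ) z ≤ A * q.ε := by
    have : Nk 1 (0 : VV n → ℝ) z = 0 := by
      unfold Nk
      have e : (0 : VV n → ℝ) = fun _ => 0 := rfl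
      rw [e, iteratedFDeriv_const_of_ne (by omega)]
      simp
    rw [this]; positivity
  have main := hst univ univ U d.s₁ d.s₂ 0 0 (d.W q) (Wf q d) (A * q.ε) isOpen_univ isOpen_univ
    hU n1 n2 contDiffOn_const contDiffOn_const b2.s b3.s (by positivity) hAε z hzU
    (mem_univ _) (mem_univ _) hNk hNk (jt_of hzU b1 b2 b3) f g
  refine main.trans ?_
  have hQ : 0 ≤ nX d.sx (d.W q) f z + nX d.sy (d.W q) g z + f z ^ 2 + g z ^ 2 := by
    have h5 : 0 ≤ nX d.sx (d.W q) f z := Finset.sum_nonneg fun _ _ => sq_nonneg _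
    have h6 : 0 ≤ nX d.sy (d.W q) g z := Finset.sum_nonneg fun _ _ => sq_nonneg _
    positivity
  have hA0 : 0 ≤ A := by linarith
  calc C2 * (A * q.ε * (nX d.sx (d.W q) f z + nX d.sy (d.W q) g z + f z ^ 2 + g z ^ 2)) =
        C2 * A * q.ε * (nX d.sx (d.W q) f z + nX d.sy (d.W q) g z + f z ^ 2 + g z ^ 2) := by ring
    _ ≤ (C2 * A + A) * q.ε *
        (nX d.sx (d.W q) f z + nX d.sy (d.W q) g z + f z ^ 2 + g z ^ 2) := by
        refine mul_le_mul_of_nonneg_right (mul_le_mul_of_nonneg_right ?_ hε0.le) hQ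
        linarith

end Vale.Agent.P088.R2.H591.C
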